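import Vale.Agent.N091.Mod

/-!
# P091, second hand-in: convergence, localization and growth on the circle
-/

open MeasureTheory AddCircle Set Filter Topology Metric
open scoped ENNReal NNReal

namespace Vale.Agent.N091

open Vale.Agent.P091.H253

section gen

variable {α ι E : Type*} [MeasurableSpace α] [NormedAddCommGroup E]

theorem close0 (μ : Measure α) (l : Filter ι) (a : ι → α → E) (f : α → E) (w : ι → ℝ) {w0 : ℝ}
    (hw0 : 0 < w0) (hw : ∀ p, w0 ≤ w p)
    (h : ∀ δ : ℝ, 0 < δ → ∀ η : ℝ≥0∞, 0 < η → ∃ (b : ι → α → E) (g : α → E),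
      (∀ᵐ x ∂μ, Tendsto (fun p => b p x) l (𝓝 (g x))) ∧
      μ {x | ∃ p, δ * w p < ‖a p x - b p x‖} ≤ η ∧ μ {x | δ < ‖f x - g x‖} ≤ η) :
    ∀ᵐ x ∂μ, Tendsto (fun p => ‖a p x - f x‖ / w p) l (𝓝 0) := by
  have key : ∀ ε : ℝ, 0 < ε → ∀ᵐ x ∂μ, ∀ᶠ p in l, ‖a p x - f x‖ / w p ≤ ε := by
    intro ε hε
    set δ : ℝ := ε / (1 + 2 / w0) with hδ
    have hδ0 : 0 < δ := by positivity
    rw [ae_iff]
    refine le_antisymm (ENNReal.le_of_forall_pos_le_add fun η hη _ => ?_) zero_le
    obtain ⟨b, g, h1, h2, h3⟩ := h δ hδ0 (η / 2) (ENNReal.half_pos (by exact_mod_cast hη.ne'))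
    have hsub : {x | ¬ ∀ᶠ p in l, ‖a p x - f x‖ / w p ≤ ε} ⊆
        {x | ¬ Tendsto (fun p => b p x) l (𝓝 (g x))} ∪
          ({x | ∃ p, δ * w p < ‖a p x - b p x‖} ∪ {x | δ < ‖f x - g x‖}) := by
      intro x hx
      by_contra hcon
      simp only [mem_union, mem_ofPred_eq, not_or, not_not, not_exists, not_lt] at hcon
      obtain ⟨c1, c2, c3⟩ := hcon
      refine hx ?_
      filter_upwards [(Metric.tendsto_nhds.1 c1) δ hδ0] with p hp
      rw [dist_eq_norm] at hp
      have hwp : 0 < w p := hw0.trans_le (hw p)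
      have e : a p x - f x = (a p x - b p x) + (b p x - g x) - (f x - g x) := by abel
      have h4 : ‖a p x - f x‖ ≤ δ * w p + δ + δ := by
        rw [e]
        exact (norm_sub_le _ _).trans (add_le_add ((norm_add_le _ _).trans
          (add_le_add (c2 p) hp.le)) c3)
      rw [div_le_iff₀ hwp]
      have h5 : ε = δ * (1 + 2 / w0) := by rw [hδ]; field_simp
      have h6 : 1 ≤ w p / w0 := (one_le_div hw0).2 (hw p)
      have h7 : ε * w p = δ * w p + 2 * δ * (w p / w0) := by rw [h5]; field_simp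
      nlinarith
    calc μ _ ≤ μ {x | ¬ Tendsto (fun p => b p x) l (𝓝 (g x))} +
          (μ {x | ∃ p, δ * w p < ‖a p x - b p x‖} + μ {x | δ < ‖f x - g x‖}) :=
          (measure_mono hsub).trans ((measure_union_le _ _).trans
            (add_le_add le_rfl (measure_union_le _ _)))
      _ ≤ 0 + (η / 2 + η / 2) := add_le_add (ae_iff.1 h1).le (add_le_add h2 h3)
      _ = 0 + η := by rw [ENNReal.add_halves]
  have h2 : ∀ᵐ x ∂μ, ∀ k : ℕ, ∀ᶠ p in l, ‖a p x - f x‖ / w p ≤ 1 / ((k : ℝ) + 1) :=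
    ae_all_iff.2 fun k => key _ (by positivity)
  filter_upwards [h2] with x hx
  rw [Metric.tendsto_nhds]
  intro ε hε
  obtain ⟨k, hk⟩ := exists_nat_one_div_lt hε
  filter_upwards [hx k] with p hp
  rw [dist_zero_right, Real.norm_of_nonneg (div_nonneg (norm_nonneg _) (hw0.le.trans (hw p)))]
  exact hp.trans_lt hk

theorem meas_gt (μ : Measure α) {h : α → E} (hm : AEStronglyMeasurable h μ) {lam : ℝ}
    (hlam : 0 < lam) : μ {x | lam < ‖h x‖} ≤ 2 * mP μ h lam := by
  have am : AEMeasurable (fun x => ENNReal.ofReal (Ph (‖h x‖ / lam))) μ :=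
    (Ph_meas.comp_aemeasurable (hm.norm.aemeasurable.div_const _)).ennreal_ofReal
  have h1 := mul_meas_ge_le_lintegral₀ am (ENNReal.ofReal (1 / 2))
  have h2 : {x | lam < ‖h x‖} ⊆
      {x | ENNReal.ofReal (1 / 2) ≤ ENNReal.ofReal (Ph (‖h x‖ / lam))} := by
    intro x hx
    refine ENNReal.ofReal_le_ofReal (le_trans ?_
      (Ph_mono zero_le_one ((one_le_div hlam).2 (le_of_lt hx))))
    unfold Ph
    have := Real.log_two_gt_d9
    norm_num; linarith
  have h5 : (2:ℝ≥0∞) * ENNReal.ofReal (1 / 2) = 1 := by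
    rw [← ENNReal.ofReal_ofNat, ← ENNReal.ofReal_mul (by norm_num)]; norm_num
  calc μ {x | lam < ‖h x‖} = 2 * (ENNReal.ofReal (1 / 2) * μ {x | lam < ‖h x‖}) := by
        rw [← mul_assoc, h5, one_mul]
    _ ≤ 2 * mP μ h lam := mul_le_mul_right ((mul_le_mul_right (measure_mono h2) _).trans h1) _

theorem small_mul {C η : ℝ≥0∞} (hC : C ≠ ∞) (hη : 0 < η) : ∃ ζ : ℝ≥0∞, 0 < ζ ∧ C * ζ ≤ η :=
  ⟨η / C, ENNReal.div_pos hη.ne' hC, ENNReal.mul_div_le⟩

/-- Banach principle in the modular form -/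
theorem close (μ : Measure α) (l : Filter ι) (op : ι → (α → E) → α → E) {C : ℝ≥0∞} (hC : C ≠ ∞)
    (hadd : ∀ p f g x, Integrable f μ → Integrable g μ → op p (f + g) x = op p f x + op p g x)
    (hmax : ∀ f, Integrable f μ → ∀ lam : ℝ, 0 < lam →
      μ {x | ∃ p, lam < ‖op p f x‖} ≤ C * mP μ f lam)
    {f : α → E} (hf : Integrable f μ)
    (happ : ∀ lam : ℝ, 0 < lam → ∀ η : ℝ≥0∞, 0 < η → ∃ g, mP μ (f - g) lam ≤ η ∧
      Integrable g μ ∧ ∀ᵐ x ∂μ, Tendsto (fun p => op p g x) l (𝓝 (g x))) :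
    ∀ᵐ x ∂μ, Tendsto (fun p => op p f x) l (𝓝 (f x)) := by
  have h := close0 μ l (fun p => op p f) f (fun _ => 1) one_pos (fun _ => le_rfl) ?_
  · filter_upwards [h] with x hx
    simp only [div_one] at hx
    exact tendsto_iff_norm_sub_tendsto_zero.2 hx
  intro δ hδ η hη
  obtain ⟨ζ, hζ, h1⟩ := small_mul (C := C + 2) (by finiteness) hη
  obtain ⟨g, h2, ig, hg⟩ := happ δ hδ ζ hζ
  refine ⟨fun p => op p g, g, hg, ?_, ?_⟩
  · have e : ∀ p x, op p f x - op p g x = op p (f - g) x := by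
      intro p x
      have := hadd p (f - g) g x (hf.sub ig) ig
      rw [sub_add_cancel] at this
      rw [this]; abel
    simp only [e, mul_one]
    exact (hmax _ (hf.sub ig) δ hδ).trans ((mul_le_mul' le_self_add h2).trans h1)
  · exact (meas_gt μ (hf.sub ig).1 hδ).trans ((mul_le_mul' le_add_self h2).trans h1)

theorem mP_le_L2 (μ : Measure α) (h : α → E) {lam : ℝ} (hlam : 0 < lam) :
    mP μ h lam ≤ ENNReal.ofReal (1 / lam ^ 2) * eLpNorm h 2 μ ^ 2 := by
  have h1 : eLpNorm h 2 μ ^ (2:ℝ) = ∫⁻ x, ‖h x‖ₑ ^ (2:ℝ) ∂μ :=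
    eLpNorm_nnreal_pow_eq_lintegral (p := 2) two_ne_zero
  simp only [ENNReal.rpow_two] at h1
  rw [h1, ← lintegral_const_mul' _ _ ENNReal.ofReal_ne_top]
  refine lintegral_mono fun x => ?_
  rw [← ofReal_norm, ← ENNReal.ofReal_pow (norm_nonneg _), ← ENNReal.ofReal_mul (by positivity)]
  refine ENNReal.ofReal_le_ofReal ((Ph_le_sq (by positivity)).trans (le_of_eq ?_))
  field_simp

theorem app_L2 (μ : Measure α) {lam : ℝ} (hlam : 0 < lam) {η : ℝ≥0∞} (hη : 0 < η) :
    ∃ ε : ℝ, 0 < ε ∧ ∀ h : α → E, eLpNorm h 2 μ ≤ ENNReal.ofReal ε → mP μ h lam ≤ η := by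
  obtain ⟨ζ, hζ, h1⟩ := small_mul (C := ENNReal.ofReal (1 / lam ^ 2)) ENNReal.ofReal_ne_top hη
  obtain ⟨r, -, hr1, hr2⟩ := ENNReal.lt_iff_exists_real_btwn.1 (lt_min hζ one_pos)
  refine ⟨r, ENNReal.ofReal_pos.1 hr1, fun h hh => (mP_le_L2 μ h hlam).trans
    (le_trans (mul_le_mul_right ?_ _) h1)⟩
  calc eLpNorm h 2 μ ^ 2 ≤ ENNReal.ofReal r ^ 2 := by gcongr
    _ = ENNReal.ofReal r * ENNReal.ofReal r := sq _
    _ ≤ 1 * ζ := mul_le_mul' (hr2.le.trans (min_le_right _ _)) (hr2.le.trans (min_le_left _ _))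
    _ = ζ := one_mul _

end gen

section bounded

variable {T : ℝ} [hT : Fact (0 < T)] {E : Type*} [NormedAddCommGroup E] [NormedSpace ℂ E]

/-- integrable with almost everywhere convergent unrestricted sums -/
def Good (f : AddCircle T → E) : Prop := Integrable f haarAddCircle ∧
  ∀ᵐ x ∂haarAddCircle, Tendsto (fun p : ℕ × ℕ => PS (-(p.1 : ℤ)) p.2 f x) atTop (𝓝 (f x))

theorem Good.add {f g : AddCircle T → E} (hf : Good f) (hg : Good g) : Good (f + g) := by
  refine ⟨hf.1.add hg.1, ?_⟩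
  filter_upwards [hf.2, hg.2] with x h1 h2
  simp_rw [PS_add _ _ hf.1 hg.1]
  exact h1.add h2

theorem Good.clm [CompleteSpace E] {F : Type*} [NormedAddCommGroup F] [NormedSpace ℂ F]
    [CompleteSpace F] (L : E →L[ℂ] F) {f : AddCircle T → E} (hf : Good f) :
    Good fun y => L (f y) := by
  refine ⟨L.integrable_comp hf.1, ?_⟩
  filter_upwards [hf.2] with x h1
  simp_rw [PS_clm L hf.1]
  exact (L.continuous.tendsto _).comp h1

theorem good_L2_of {C : ℝ} (h : MaxC C T E) {f : AddCircle T → E} (hf : Integrable f haarAddCircle)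
    (happ : ∀ ε : ℝ, 0 < ε → ∃ g, eLpNorm (f - g) 2 haarAddCircle ≤ ENNReal.ofReal ε ∧ Good g) :
    Good f := by
  refine ⟨hf, close haarAddCircle atTop (fun (p : ℕ × ℕ) f => PS (-(p.1 : ℤ)) p.2 f)
    (C := ENNReal.ofReal C) ENNReal.ofReal_ne_top (fun p f g x hf hg => PS_add _ _ hf hg x)
    (fun f hf lam hlam => le_trans (measure_mono ?_) (h f hf lam hlam)) hf
    fun lam hlam η hη => ?_⟩
  · rintro x ⟨p, hp⟩
    exact ⟨_, _, hp⟩
  · obtain ⟨ε, hε, h1⟩ := app_L2 (E := E) (haarAddCircle (T := T)) hlam hη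
    obtain ⟨g, h2, h3⟩ := happ ε hε
    exact ⟨g, h1 _ h2, h3⟩

theorem good_trig {p : C(AddCircle T, ℂ)} (hp : p ∈ Submodule.span ℂ (range (@fourier T))) :
    Good (p : AddCircle T → ℂ) := by
  induction hp using Submodule.span_induction with
  | mem p hp =>
    obtain ⟨m, rfl⟩ := hp
    refine ⟨cont_int _, Eventually.of_forall fun x => tendsto_const_nhds.congr' ?_⟩
    filter_upwards [eventually_ge_atTop (m.natAbs, m.natAbs)] with p hp
    have h1 : m.natAbs ≤ p.1 := hp.1
    have h2 : m.natAbs ≤ p.2 := hp.2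
    unfold PS
    rw [fourierCoeff_fourier, Finset.sum_eq_single m]
    · simp
    · intro k _ hk; simp [Pi.single_eq_of_ne hk]
    · intro hm; exact absurd (Finset.mem_Icc.2 ⟨by omega, by omega⟩) hm
  | zero =>
    refine ⟨cont_int _, Eventually.of_forall fun x => ?_⟩
    simp [PS, fourierCoeff]
  | add p q _ _ hp hq => exact hp.add hq
  | smul c p _ hp => exact hp.clm (c • ContinuousLinearMap.id ℂ ℂ)

theorem good_cont {C : ℝ} (h : MaxC C T ℂ) (g : C(AddCircle T, ℂ)) :
    Good (g : AddCircle T → ℂ) := by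
  refine good_L2_of h (cont_int g) fun ε hε => ?_
  have hc : g ∈ closure ((Submodule.span ℂ (range (@fourier T)) : Submodule ℂ C(AddCircle T, ℂ)) :
      Set C(AddCircle T, ℂ)) := by
    rw [← Submodule.topologicalClosure_coe, span_fourier_closure_eq_top]; trivial
  obtain ⟨p, hp, hd⟩ := Metric.mem_closure_iff.1 hc ε hε
  rw [dist_eq_norm] at hd
  refine ⟨p, (eLpNorm_le_of_ae_bound (C := ε) (Eventually.of_forall fun y =>
    ((g - p).norm_coe_le_norm y).trans hd.le)).trans ?_, good_trig hp⟩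
  simp

theorem good_L2_scalar {C : ℝ} (h : MaxC C T ℂ) {f : AddCircle T → ℂ}
    (hf : MemLp f 2 haarAddCircle) : Good f := by
  refine good_L2_of h (hf.integrable one_le_two) fun ε hε => ?_
  obtain ⟨g, hg, -⟩ := hf.exists_boundedContinuous_eLpNorm_sub_le (by norm_num)
    (ε := ENNReal.ofReal ε) (by simpa using hε)
  exact ⟨g, hg, good_cont h g.toContinuousMap⟩

theorem good_L2 [CompleteSpace E] {C : ℝ} (h0 : MaxC C T ℂ) (h : MaxC C T E)
    {f : AddCircle T → E} (hf : MemLp f 2 haarAddCircle) : Good f := by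
  refine good_L2_of h (hf.integrable one_le_two) fun ε hε => ?_
  refine hf.induction_dense (by norm_num) Good ?_ (fun f g => Good.add) (fun f hf => hf.1.1)
    (by simpa using hε)
  intro c s ms _ η _
  refine ⟨s.indicator fun _ => c, by simp, ?_⟩
  have h1 : MemLp (s.indicator fun _ => (1:ℂ)) 2 (haarAddCircle (T := T)) :=
    (memLp_const 1).indicator ms
  have h2 := (good_L2_scalar h0 h1).clm (ContinuousLinearMap.toSpanSingleton ℂ c)
  have e : (fun y => ContinuousLinearMap.toSpanSingleton ℂ c (s.indicator (fun _ => (1:ℂ)) y)) =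
      s.indicator fun _ => c := by
    ext y
    by_cases hy : y ∈ s <;> simp [hy]
  rwa [e] at h2

end bounded

section kernel

theorem tele {G : Type*} [AddCommGroup G] (a : ℤ → G) {M N : ℤ} (h : M ≤ N + 1) :
    ∑ k ∈ Finset.Icc M N, (a (k + 1) - a k) = a (N + 1) - a M := by
  obtain ⟨n, hn⟩ : ∃ n : ℕ, N = M + n - 1 := ⟨(N + 1 - M).toNat, by omega⟩
  subst hn
  clear h
  induction n with
  | zero => simp
  | succ n ih =>
    have e : Finset.Icc M (M + (n + 1 : ℕ) - 1) = insert (M + n) (Finset.Icc M (M + n - 1)) := by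
      ext k; simp only [Finset.mem_Icc, Finset.mem_insert]; omega
    rw [e, Finset.sum_insert (by simp only [Finset.mem_Icc]; omega), ih]
    have e1 : M + n - 1 + 1 = M + n := by ring
    have e2 : M + (n + 1 : ℕ) - 1 + 1 = M + n + 1 := by push_cast; ring
    rw [e1, e2]; abel

theorem dyadic {T r d : ℝ} (hT : 0 < T) (hr : r ≤ T) (hd : d * r ≤ T / 2) (J : ℕ)
    (hJ : d ≤ 2 ^ J) : d ≤ ∑ j ∈ Finset.range (J + 1), if r ≤ T / 2 ^ j then (2:ℝ) ^ j else 0 := by
  induction J with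
  | zero => simpa [hr] using hJ
  | succ J ih =>
    rw [Finset.sum_range_succ]
    have h0 : 0 ≤ ∑ j ∈ Finset.range (J + 1), if r ≤ T / 2 ^ j then (2:ℝ) ^ j else 0 :=
      Finset.sum_nonneg fun j _ => by split_ifs <;> positivity
    split_ifs with h
    · linarith
    · rw [add_zero]
      refine ih ?_
      by_contra hc
      rw [not_le] at h hc
      have h1 : (0:ℝ) < T / 2 ^ (J + 1) := by positivity
      have h2 : 2 ^ J * (T / 2 ^ (J + 1)) < d * r :=
        mul_lt_mul'' hc h (by positivity) h1.le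
      have h3 : (2:ℝ) ^ J * (T / 2 ^ (J + 1)) = T / 2 := by rw [pow_succ]; field_simp
      linarith

variable {T : ℝ} [hT : Fact (0 < T)] {E : Type*} [NormedAddCommGroup E] [NormedSpace ℂ E]

theorem jordan (t : AddCircle T) : 4 * ‖t‖ / T ≤ ‖(fourier 1 t : ℂ) - 1‖ := by
  have hT0 := hT.out
  induction t using QuotientAddGroup.induction_on with
  | H z =>
    set s : ℝ := z - round (T⁻¹ * z) * T with hs
    have h1 : ‖(z : AddCircle T)‖ = |s| := AddCircle.norm_eq T
    have h2 : |s| ≤ T / 2 := by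
      have := AddCircle.norm_le_half_period T (x := (z : AddCircle T)) hT0.ne'
      rwa [h1, abs_of_pos hT0] at this
    have h3 : (fourier 1 (z : AddCircle T) : ℂ) = Complex.exp (Complex.I * ((2 * Real.pi * s / T : ℝ))) := by
      rw [fourier_coe_apply, Complex.exp_eq_exp_iff_exists_int]
      refine ⟨round (T⁻¹ * z), ?_⟩
      have : (T : ℂ) ≠ 0 := by exact_mod_cast hT0.ne'
      rw [hs]; push_cast; field_simp; ring
    show 4 * ‖(z : AddCircle T)‖ / T ≤ ‖(fourier 1 (z : AddCircle T) : ℂ) - 1‖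
    rw [h1, h3, Complex.norm_exp_I_mul_ofReal_sub_one, norm_mul, Real.norm_ofNat, Real.norm_eq_abs]
    have h4 : |2 * Real.pi * s / T / 2| = Real.pi * |s| / T := by
      rw [show 2 * Real.pi * s / T / 2 = Real.pi * s / T by ring, abs_div, abs_mul,
        abs_of_pos Real.pi_pos, abs_of_pos hT0]
    have h5 : |2 * Real.pi * s / T / 2| ≤ Real.pi / 2 := by
      rw [h4, div_le_iff₀ hT0]; nlinarith [Real.pi_pos]
    have h6 := Real.mul_abs_le_abs_sin h5
    rw [h4] at h6
    have h7 : 2 / Real.pi * (Real.pi * |s| / T) = 2 * |s| / T := by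
      have := Real.pi_pos; field_simp
    rw [h7] at h6
    have h8 : 4 * |s| / T = 2 * (2 * |s| / T) := by ring
    linarith

/-- the Dirichlet kernel of a frequency interval -/
noncomputable def DK (M N : ℤ) (t : AddCircle T) : ℂ := ∑ k ∈ Finset.Icc M N, fourier k t

omit hT in
theorem DK_mul {M N : ℤ} (h : M ≤ N + 1) (t : AddCircle T) :
    DK M N t * (fourier 1 t - 1) = fourier (N + 1) t - fourier M t := by
  unfold DK
  rw [← tele (fun k => (fourier k t : ℂ)) h, Finset.sum_mul]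
  refine Finset.sum_congr rfl fun k _ => ?_
  rw [fourier_add]; ring

omit hT in
theorem DK_le (M N : ℤ) (t : AddCircle T) : ‖DK M N t‖ ≤ (Finset.Icc M N).card := by
  unfold DK
  refine (norm_sum_le _ _).trans ((Finset.sum_le_card_nsmul _ _ 1 fun k _ => ?_).trans ?_)
  · rw [norm_fourier]
  · rw [nsmul_eq_mul, mul_one]

theorem DK_dyadic {M N : ℤ} (h : M ≤ N + 1) {J : ℕ} (hJ : (Finset.Icc M N).card ≤ 2 ^ J)
    (t : AddCircle T) :
    ‖DK M N t‖ ≤ ∑ j ∈ Finset.range (J + 1), if ‖t‖ ≤ T / 2 ^ j then (2:ℝ) ^ j else 0 := by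
  have hT0 := hT.out
  refine dyadic hT0 ?_ ?_ J ((DK_le M N t).trans (by exact_mod_cast hJ))
  · have := AddCircle.norm_le_half_period T (x := t) hT0.ne'
    rw [abs_of_pos hT0] at this; linarith
  · have h1 : ‖DK M N t‖ * ‖(fourier 1 t : ℂ) - 1‖ ≤ 2 := by
      rw [← norm_mul, DK_mul h]
      refine (norm_sub_le _ _).trans ?_
      rw [norm_fourier, norm_fourier]; norm_num
    have h2 := mul_le_mul_of_nonneg_left (jordan t) (norm_nonneg (DK M N t))
    have h3 : ‖DK M N t‖ * (4 * ‖t‖ / T) ≤ 2 := h2.trans h1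
    rw [← mul_div_assoc, div_le_iff₀ hT0] at h3
    linarith

omit hT in
theorem fourier_sub (k : ℤ) (x y : AddCircle T) :
    (fourier k (x - y) : ℂ) = fourier k x * fourier (-k) y := by
  simp only [fourier_apply]
  rw [sub_eq_add_neg, smul_add, toCircle_add, Circle.coe_mul, smul_neg, neg_smul]

theorem PS_kernel (M N : ℤ) {g : AddCircle T → E} (hg : Integrable g haarAddCircle)
    (x : AddCircle T) : PS M N g x = ∫ y, DK M N (x - y) • g y ∂haarAddCircle := by
  unfold PS DK fourierCoeff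
  simp_rw [Finset.sum_smul, fourier_sub, mul_smul]
  have hi : ∀ k : ℤ, Integrable (fun y => (fourier k x : ℂ) • (fourier (-k) y : ℂ) • g y)
      haarAddCircle := fun k => (hg.fourier_smul (-k)).smul (fourier k x : ℂ)
  rw [integral_finsetSum _ fun k _ => hi k]
  exact Finset.sum_congr rfl fun k _ => (integral_smul _ _).symm

theorem haar_ball (x : AddCircle T) (r : ℝ) :
    haarAddCircle (closedBall x r) ≤ ENNReal.ofReal (2 * r / T) := by
  have hT0 := hT.out
  have h1 := AddCircle.volume_closedBall T (x := x) r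
  rw [volume_eq_smul_haarAddCircle, Measure.smul_apply, smul_eq_mul] at h1
  rw [ENNReal.ofReal_div_of_pos hT0, ENNReal.le_div_iff_mul_le (Or.inl (by simpa using hT0))
    (Or.inl ENNReal.ofReal_ne_top), mul_comm, h1]
  exact ENNReal.ofReal_le_ofReal (min_le_right _ _)

/-- the Hardy-Littlewood set -/
def HLs (G : AddCircle T → ℝ≥0∞) (τ : ℝ) : Set (AddCircle T) :=
  {x | ∃ j : ℕ, ENNReal.ofReal (τ / 2 ^ j) < ∫⁻ y in closedBall x (T / 2 ^ j), G y ∂haarAddCircle}

theorem hl (G : AddCircle T → ℝ≥0∞) {τ : ℝ} (hτ : 0 < τ) :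
    haarAddCircle (HLs G τ) ≤ ENNReal.ofReal (10 / τ) * ∫⁻ y, G y ∂haarAddCircle := by
  have hT0 := hT.out
  set t : Set (AddCircle T × ℕ) := {q | ENNReal.ofReal (τ / 2 ^ q.2) <
    ∫⁻ y in closedBall q.1 (T / 2 ^ q.2), G y ∂haarAddCircle} with ht
  obtain ⟨u, hut, hdis, hcov⟩ := Vitali.exists_disjoint_subfamily_covering_enlargement_closedBall
    t (fun q => q.1) (fun q => T / 2 ^ q.2) T
    (fun q _ => div_le_self hT0.le (one_le_pow₀ one_le_two)) 5 (by norm_num)
  have hu : u.Countable := hdis.countable_of_nonempty_interior fun q _ =>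
    ⟨q.1, mem_interior_iff_mem_nhds.2 (closedBall_mem_nhds _ (by positivity))⟩
  have hsub : HLs G τ ⊆ ⋃ q ∈ u, closedBall q.1 (5 * (T / 2 ^ q.2)) := by
    rintro x ⟨j, hj⟩
    obtain ⟨b, hb, h⟩ := hcov (x, j) hj
    exact mem_biUnion hb (h (mem_closedBall_self (by positivity)))
  refine (measure_mono hsub).trans ((measure_biUnion_le _ hu _).trans ?_)
  calc ∑' q : u, haarAddCircle (closedBall q.1.1 (5 * (T / 2 ^ q.1.2)))
      ≤ ∑' q : u, ENNReal.ofReal (10 / τ) *
          ∫⁻ y in closedBall q.1.1 (T / 2 ^ q.1.2), G y ∂haarAddCircle := by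
        refine ENNReal.tsum_le_tsum fun q => (haar_ball _ _).trans ?_
        refine le_trans (le_of_eq ?_) (mul_le_mul_right (le_of_lt (hut q.2)) _)
        rw [← ENNReal.ofReal_mul (by positivity)]
        congr 1; field_simp; norm_num
    _ = ENNReal.ofReal (10 / τ) *
          ∫⁻ y in ⋃ q ∈ u, closedBall q.1 (T / 2 ^ q.2), G y ∂haarAddCircle := by
        rw [ENNReal.tsum_mul_left, lintegral_biUnion hu (fun _ _ => measurableSet_closedBall) hdis]
    _ ≤ _ := mul_le_mul_right (setLIntegral_le_lintegral _ _) _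

theorem PS_le_hl {G : AddCircle T → ℝ≥0∞} (mG : Measurable G) {τ c : ℝ} (hτ : 0 ≤ τ) (hc : 0 ≤ c)
    {g : AddCircle T → E} (hg : Integrable g haarAddCircle)
    (hgG : ∀ y, ‖g y‖ₑ ≤ ENNReal.ofReal c * G y) {x : AddCircle T} (hx : x ∉ HLs G τ)
    {M N : ℤ} (h : M ≤ N + 1) {J : ℕ} (hJ : (Finset.Icc M N).card ≤ 2 ^ J) :
    ‖PS M N g x‖ ≤ (J + 1) * (c * τ) := by
  have hx' : ∀ j : ℕ, ∫⁻ y in closedBall x (T / 2 ^ j), G y ∂haarAddCircle ≤
      ENNReal.ofReal (τ / 2 ^ j) := fun j => not_lt.1 fun hj => hx ⟨j, hj⟩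
  rw [← ENNReal.ofReal_le_ofReal_iff (by positivity), ofReal_norm, PS_kernel M N hg]
  refine (enorm_integral_le_lintegral_enorm _).trans ?_
  calc ∫⁻ y, ‖DK M N (x - y) • g y‖ₑ ∂haarAddCircle
      ≤ ∫⁻ y, ∑ j ∈ Finset.range (J + 1), (closedBall x (T / 2 ^ j)).indicator
          (fun y => ENNReal.ofReal (2 ^ j * c) * G y) y ∂haarAddCircle := by
        refine lintegral_mono fun y => ?_
        rw [enorm_smul, ← ofReal_norm (DK M N (x - y))]
        refine (mul_le_mul' (ENNReal.ofReal_le_ofReal (DK_dyadic h hJ _)) (hgG y)).trans ?_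
        rw [ENNReal.ofReal_sum_of_nonneg fun j _ => by split_ifs <;> positivity, Finset.sum_mul]
        refine Finset.sum_le_sum fun j _ => ?_
        split_ifs with hj
        · have : y ∈ closedBall x (T / 2 ^ j) := by
            rw [mem_closedBall, dist_comm, dist_eq_norm]; exact hj
          rw [indicator_of_mem this, ENNReal.ofReal_mul (by positivity), mul_assoc]
        · simp
    _ = ∑ j ∈ Finset.range (J + 1), ENNReal.ofReal (2 ^ j * c) *
          ∫⁻ y in closedBall x (T / 2 ^ j), G y ∂haarAddCircle := by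
        have hm : ∀ j : ℕ, Measurable ((closedBall x (T / 2 ^ j)).indicator
            (fun y => ENNReal.ofReal (2 ^ j * c) * G y)) := fun j =>
          (measurable_const.mul mG).indicator measurableSet_closedBall
        rw [lintegral_finsetSum _ fun j _ => hm j]
        refine Finset.sum_congr rfl fun j _ => ?_
        rw [lintegral_indicator measurableSet_closedBall, lintegral_const_mul _ mG]
    _ ≤ ∑ _j ∈ Finset.range (J + 1), ENNReal.ofReal (c * τ) := by
        refine Finset.sum_le_sum fun j _ => (mul_le_mul_right (hx' j) _).trans (le_of_eq ?_)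
        rw [← ENNReal.ofReal_mul (by positivity)]
        congr 1; field_simp
    _ = _ := by
        rw [Finset.sum_const, Finset.card_range, nsmul_eq_mul, ← ENNReal.ofReal_natCast,
          ← ENNReal.ofReal_mul (by positivity)]
        push_cast; rfl

/-- Riemann localization -/
theorem localize {h : AddCircle T → E} (hh : Integrable h haarAddCircle) {U : Set (AddCircle T)}
    (hU : IsOpen U) (h0 : ∀ y ∈ U, h y = 0) {x : AddCircle T} (hx : x ∈ U) :
    Tendsto (fun p : ℕ × ℕ => PS (-(p.1 : ℤ)) p.2 h x) atTop (𝓝 0) := by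
  have hT0 := hT.out
  obtain ⟨r, hr, hrU⟩ := Metric.isOpen_iff.1 hU x hx
  have low : ∀ y, y ∉ U → 4 * r / T ≤ ‖(fourier 1 (x - y) : ℂ) - 1‖ := by
    intro y hy
    refine le_trans ?_ (jordan _)
    have : r ≤ ‖x - y‖ := by
      by_contra hc
      exact hy (hrU (by rw [mem_ball, dist_comm, dist_eq_norm]; exact not_le.1 hc))
    gcongr
  have hpos : 0 < 4 * r / T := by positivity
  set q : AddCircle T → E := fun y => ((fourier 1 (x - y) : ℂ) - 1)⁻¹ • h y with hq
  have iq : Integrable q haarAddCircle := by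
    refine Integrable.mono' (hh.norm.const_mul (4 * r / T)⁻¹) ?_ (Eventually.of_forall fun y => ?_)
    · have mc : Measurable fun y : AddCircle T => ((fourier 1 (x - y) : ℂ) - 1)⁻¹ :=
        (Continuous.measurable (by fun_prop)).inv
      exact mc.aestronglyMeasurable.smul hh.1
    · by_cases hy : y ∈ U
      · simp [hq, h0 y hy]
      · rw [hq]
        simp only []
        rw [norm_smul, norm_inv]
        exact mul_le_mul_of_nonneg_right (inv_anti₀ hpos (low y hy)) (norm_nonneg _)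
  have e1 : h = (fun y => (fourier 1 x : ℂ) • (fourier (-1) y : ℂ) • q y) + (-1 : ℂ) • q := by
    ext y
    have : ((fourier 1 (x - y) : ℂ) - 1) • q y = h y := by
      by_cases hy : y ∈ U
      · simp [hq, h0 y hy]
      · have h1 : (fourier 1 (x - y) : ℂ) - 1 ≠ 0 := by
          intro h2
          have := low y hy
          rw [h2, norm_zero] at this; linarith
        rw [hq]; simp only []
        rw [smul_smul, mul_inv_cancel₀ h1, one_smul]
    rw [← this, fourier_sub, sub_smul, mul_smul, Pi.add_apply, Pi.smul_apply, neg_smul,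
      sub_eq_add_neg]
  have e2 : ∀ k : ℤ, fourier k x • fourierCoeff h k =
      fourier (k + 1) x • fourierCoeff q (k + 1) - fourier k x • fourierCoeff q k := by
    intro k
    have i1 : Integrable (fun y => (fourier 1 x : ℂ) • (fourier (-1) y : ℂ) • q y) haarAddCircle :=
      (iq.fourier_smul (-1)).smul (fourier 1 x : ℂ)
    have e3 : fourierCoeff (fun y => (fourier 1 x : ℂ) • (fourier (-1) y : ℂ) • q y) k =
        (fourier 1 x : ℂ) • fourierCoeff q (k + 1) := by
      have := fourierCoeff.const_smul (fun y => (fourier (-1) y : ℂ) • q y) (fourier 1 x : ℂ) k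
      rw [coeff_mod, sub_neg_eq_add] at this
      exact this
    rw [e1, fourierCoeff.add i1 (iq.smul (-1 : ℂ)), Pi.add_apply, e3, fourierCoeff.const_smul,
      fourier_add, smul_add, mul_smul, neg_smul, one_smul, smul_neg, sub_eq_add_neg]
  rw [Metric.tendsto_nhds]
  intro ε hε
  obtain ⟨K, hK⟩ := rl q (show 0 < ε / 3 by positivity)
  filter_upwards [eventually_ge_atTop (K, K)] with p hp
  have h1 : K ≤ p.1 := hp.1
  have h2 : K ≤ p.2 := hp.2
  rw [dist_zero_right]
  unfold PS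
  simp_rw [e2]
  rw [tele (fun k => (fourier k x : ℂ) • fourierCoeff q k) (by omega)]
  refine (norm_sub_le _ _).trans_lt ?_
  rw [norm_smul, norm_smul, norm_fourier, norm_fourier, one_mul, one_mul]
  have h3 := hK ((p.2 : ℤ) + 1) (by rw [abs_of_nonneg (by omega)]; omega)
  have h4 := hK (-(p.1 : ℤ)) (by rw [abs_of_nonpos (by omega)]; omega)
  linarith

end kernel

section growth

/-- admissible growth rates -/
structure Wt (ω : ℝ → ℝ) : Prop where
  pos : ∀ u, 0 ≤ u → 0 < ω u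
  mono : MonotoneOn ω (Ici 0)
  mono' : MonotoneOn (fun u => Real.log (2 + u) / ω u) (Ici 0)

/-- `u log (2 + u) / ω u` -/
noncomputable def W (ω : ℝ → ℝ) (u : ℝ) : ℝ := u * Real.log (2 + u) / ω u

variable {ω : ℝ → ℝ}

theorem log2_pos {u : ℝ} (hu : 0 ≤ u) : 0 < Real.log (2 + u) := Real.log_pos (by linarith)

theorem Wt.W_nonneg (hω : Wt ω) {u : ℝ} (hu : 0 ≤ u) : 0 ≤ W ω u :=
  div_nonneg (mul_nonneg hu (log2_pos hu).le) (hω.pos u hu).le

theorem Wt.le_W (hω : Wt ω) {n u : ℝ} (hn : 0 ≤ n) (hu : n ≤ u) :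
    u ≤ ω n / Real.log (2 + n) * W ω u := by
  have hu0 := hn.trans hu
  have h1 : Real.log (2 + n) / ω n ≤ Real.log (2 + u) / ω u := hω.mono' hn hu0 hu
  have h2 := log2_pos hn
  have h3 := hω.pos n hn
  calc u = ω n / Real.log (2 + n) * (u * (Real.log (2 + n) / ω n)) := by field_simp
    _ ≤ ω n / Real.log (2 + n) * (u * (Real.log (2 + u) / ω u)) := by gcongr
    _ = _ := by unfold W; ring

theorem Wt.meas (hω : Wt ω) {α : Type*} [MeasurableSpace α] {v : α → ℝ} (mv : Measurable v)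
    (h0 : ∀ x, 0 ≤ v x) : Measurable fun x => ω (v x) := by
  have hm : Monotone fun u : ℝ => ω (max u 0) := fun a b hab =>
    hω.mono (le_max_right a 0) (le_max_right b 0) (max_le_max hab le_rfl)
  have e : (fun x => ω (v x)) = (fun u : ℝ => ω (max u 0)) ∘ v := by
    ext x; simp only [Function.comp_apply, max_eq_left (h0 x)]
  rw [e]; exact hm.measurable.comp mv

theorem Wt.measW (hω : Wt ω) {α : Type*} [MeasurableSpace α] {v : α → ℝ} (mv : Measurable v)
    (h0 : ∀ x, 0 ≤ v x) : Measurable fun x => ENNReal.ofReal (W ω (v x)) :=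
  ((mv.mul (measurable_const.add mv).log).div (hω.meas mv h0)).ennreal_ofReal

theorem Wt.tsum_le (hω : Wt ω) {l0 : ℝ} (hl : 0 < l0) {u : ℝ} (hu : 0 ≤ u) :
    ∑' k : ℕ, ENNReal.ofReal (Ph ((if ω u < 2 ^ (k + 1) * ω 0 then u else 0) / (l0 * 2 ^ k))) ≤
      ENNReal.ofReal (max 1 (1 / l0) * (4 * ω 0 / l0)) * ENNReal.ofReal (W ω u) := by
  have w0 := hω.pos 0 le_rfl
  have wu := hω.pos u hu
  have h1 : 1 ≤ ω u / ω 0 := (one_le_div w0).2 (hω.mono (le_refl (0:ℝ)) hu hu)
  obtain ⟨k0, hk1, hk2⟩ := exists_nat_pow_near h1 one_lt_two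
  set K0 : ℝ := max 1 (1 / l0) with hK0
  have hK1 : 1 ≤ K0 := le_max_left _ _
  have lp := log2_pos hu
  set B : ℝ := K0 * (u * Real.log (2 + u)) / l0 with hB
  have hB0 : 0 ≤ B := by positivity
  have hs : Summable fun k : ℕ => if k0 ≤ k then (2:ℝ)⁻¹ ^ k else 0 := by
    refine Summable.of_nonneg_of_le (fun k => by split_ifs <;> positivity) (fun k => ?_)
      (summable_geometric_of_lt_one (r := (2:ℝ)⁻¹) (by positivity) (by norm_num))
    split_ifs
    · exact le_rfl
    · positivity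
  have pt : ∀ k : ℕ, Ph ((if ω u < 2 ^ (k + 1) * ω 0 then u else 0) / (l0 * 2 ^ k)) ≤
      B * if k0 ≤ k then (2:ℝ)⁻¹ ^ k else 0 := by
    intro k
    by_cases hk : ω u < 2 ^ (k + 1) * ω 0
    · have h2 : k0 ≤ k := by
        have h3 : (2:ℝ) ^ k0 < 2 ^ (k + 1) := hk1.trans_lt (by rwa [div_lt_iff₀ w0])
        have := (pow_lt_pow_iff_right₀ (one_lt_two (α := ℝ))).1 h3
        omega
      rw [if_pos hk, if_pos h2]
      unfold Ph
      have h4 : u / (l0 * 2 ^ k) ≤ K0 * u := by
        calc u / (l0 * 2 ^ k) ≤ u / l0 :=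
              div_le_div_of_nonneg_left hu hl (le_mul_of_one_le_right hl.le (one_le_pow₀ one_le_two))
          _ = 1 / l0 * u := by ring
          _ ≤ K0 * u := mul_le_mul_of_nonneg_right (le_max_right _ _) hu
      have h5 : 0 ≤ u / (l0 * 2 ^ k) := by positivity
      have h6 : Real.log (1 + u / (l0 * 2 ^ k)) ≤ K0 * Real.log (2 + u) :=
        calc Real.log (1 + u / (l0 * 2 ^ k)) ≤ Real.log (1 + K0 * u) :=
              Real.log_le_log (by linarith) (by linarith)
          _ ≤ K0 * Real.log (1 + u) := log_bern hu hK1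
          _ ≤ K0 * Real.log (2 + u) :=
              mul_le_mul_of_nonneg_left (Real.log_le_log (by linarith) (by linarith)) (by linarith)
      calc u / (l0 * 2 ^ k) * Real.log (1 + u / (l0 * 2 ^ k))
          ≤ u / (l0 * 2 ^ k) * (K0 * Real.log (2 + u)) := mul_le_mul_of_nonneg_left h6 h5
        _ = _ := by rw [hB, inv_pow]; field_simp
    · rw [if_neg hk, zero_div, Ph_zero]
      split_ifs <;> positivity
  calc _ ≤ ∑' k : ℕ, ENNReal.ofReal (B * if k0 ≤ k then (2:ℝ)⁻¹ ^ k else 0) :=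
        ENNReal.tsum_le_tsum fun k => ENNReal.ofReal_le_ofReal (pt k)
    _ = ENNReal.ofReal (B * (2 * 2⁻¹ ^ k0)) := by
        rw [← ENNReal.ofReal_tsum_of_nonneg (fun k => by split_ifs <;> positivity) (hs.mul_left B),
          tsum_mul_left, tsum_geometric_inv_two_ge]
    _ ≤ _ := by
        rw [← ENNReal.ofReal_mul (by positivity)]
        refine ENNReal.ofReal_le_ofReal ?_
        have h7 : 2 * (2:ℝ)⁻¹ ^ k0 ≤ 4 * ω 0 / ω u := by
          rw [div_lt_iff₀ w0, pow_succ] at hk2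
          rw [inv_pow, ← div_eq_mul_inv, div_le_div_iff₀ (by positivity) wu]
          linarith
        calc B * (2 * 2⁻¹ ^ k0) ≤ B * (4 * ω 0 / ω u) := mul_le_mul_of_nonneg_left h7 hB0
          _ = _ := by rw [hB]; unfold W; field_simp

theorem tail_small {α : Type*} [MeasurableSpace α] (μ : Measure α) {G : α → ℝ≥0∞}
    (mG : Measurable G) (hG : ∫⁻ x, G x ∂μ ≠ ∞) {v : α → ℝ} (mv : Measurable v) {ζ : ℝ≥0∞}
    (hζ : 0 < ζ) : ∃ H : ℕ, ∫⁻ x, {x | v x ≤ H}ᶜ.indicator G x ∂μ ≤ ζ := by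
  have h := tendsto_lintegral_of_dominated_convergence (μ := μ)
    (F := fun (H : ℕ) x => {x | v x ≤ H}ᶜ.indicator G x) (f := fun _ => 0) G
    (fun H => mG.indicator (measurableSet_le mv measurable_const).compl)
    (fun H => Eventually.of_forall fun x => indicator_le_self _ _ x) hG
    (Eventually.of_forall fun x => tendsto_const_nhds.congr' (by
      filter_upwards [eventually_ge_atTop ⌈v x⌉₊] with H hH
      have h1 : v x ≤ H := (Nat.le_ceil (v x)).trans (by exact_mod_cast hH)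
      rw [indicator_of_notMem]
      exact fun hc => hc h1))
  rw [lintegral_zero] at h
  exact (h.eventually (ge_mem_nhds hζ)).exists

variable {T : ℝ} [hT : Fact (0 < T)] {E : Type*} [NormedAddCommGroup E] [NormedSpace ℂ E]

theorem wk {C : ℝ} (hC : MaxC C T E) (hω : Wt ω) {ε : ℝ} (hε : 0 < ε) :
    ∃ K : ℝ≥0∞, K ≠ ∞ ∧ ∀ h : AddCircle T → E, StronglyMeasurable h →
      Integrable h haarAddCircle →
      haarAddCircle {x | ∃ p : ℕ × ℕ, ε * ω (p.1 + p.2) < ‖PS (-(p.1 : ℤ)) p.2 h x‖} ≤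
        K * ∫⁻ y, ENNReal.ofReal (W ω ‖h y‖) ∂haarAddCircle := by
  have w0 := hω.pos 0 le_rfl
  set l0 : ℝ := ε * ω 0 / 2 with hl0
  have hl : 0 < l0 := by positivity
  refine ⟨ENNReal.ofReal (10 / (ε / 10)) +
    ENNReal.ofReal C * ENNReal.ofReal (max 1 (1 / l0) * (4 * ω 0 / l0)), by finiteness,
    fun h mh ih => ?_⟩
  have mn : Measurable fun y => ‖h y‖ := mh.norm.measurable
  set G : AddCircle T → ℝ≥0∞ := fun y => ENNReal.ofReal (W ω ‖h y‖) with hG
  have mG : Measurable G := hω.measW mn fun _ => norm_nonneg _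
  set D : ℕ → Set (AddCircle T) := fun k => {y | ω ‖h y‖ < 2 ^ (k + 1) * ω 0} with hD
  have mD : ∀ k, MeasurableSet (D k) := fun k =>
    measurableSet_lt (hω.meas mn fun _ => norm_nonneg _) measurable_const
  have hsub : {x | ∃ p : ℕ × ℕ, ε * ω (p.1 + p.2) < ‖PS (-(p.1 : ℤ)) p.2 h x‖} ⊆
      HLs G (ε / 10) ∪ ⋃ k : ℕ, {x | ∃ M N : ℤ, l0 * 2 ^ k < ‖PS M N ((D k).indicator h) x‖} := by
    rintro x ⟨⟨M, N⟩, hx⟩
    by_contra hcon
    simp only [mem_union, mem_iUnion, mem_ofPred_eq, not_or, not_exists, not_lt] at hcon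
    obtain ⟨c1, c2⟩ := hcon
    set n : ℝ := (M : ℝ) + N with hn
    have hn0 : 0 ≤ n := by positivity
    have wn := hω.pos n hn0
    have ln := log2_pos hn0
    obtain ⟨k, hk1, hk2⟩ := exists_nat_pow_near
      ((one_le_div w0).2 (hω.mono (le_refl (0:ℝ)) hn0 hn0)) one_lt_two
    rw [le_div_iff₀ w0] at hk1
    rw [div_lt_iff₀ w0] at hk2
    obtain ⟨j, hj1, hj2⟩ := exists_nat_pow_near (show 1 ≤ 2 + n by linarith) one_lt_two
    have hJ : (Finset.Icc (-(M : ℤ)) N).card ≤ 2 ^ (j + 1) := by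
      have h1 : (Finset.Icc (-(M : ℤ)) N).card = M + N + 1 := by rw [Int.card_Icc]; omega
      rw [h1]
      have h2 : ((M + N + 1 : ℕ) : ℝ) ≤ ((2 ^ (j + 1) : ℕ) : ℝ) := by push_cast; linarith
      exact_mod_cast h2
    have hJ2 : ((j + 1 : ℕ) : ℝ) + 1 ≤ 5 * Real.log (2 + n) := by
      have h1 : (j : ℝ) * Real.log 2 ≤ Real.log (2 + n) := by
        rw [← Real.log_pow]; exact Real.log_le_log (by positivity) hj1
      have h2 : Real.log 2 ≤ Real.log (2 + n) := Real.log_le_log two_pos (by linarith)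
      have h3 := Real.log_two_gt_d9
      have h4 : (0:ℝ) ≤ j := Nat.cast_nonneg _
      push_cast
      nlinarith
    have h3 : ‖PS (-(M : ℤ)) N ((D k)ᶜ.indicator h) x‖ ≤
        (((j + 1 : ℕ) : ℝ) + 1) * (ω n / Real.log (2 + n) * (ε / 10)) := by
      refine PS_le_hl mG (by positivity) (by positivity) (ih.indicator (mD k).compl)
        (fun y => ?_) c1 (by omega) hJ
      by_cases hy : y ∈ (D k)ᶜ
      · rw [indicator_of_mem hy, ← ofReal_norm, hG]
        simp only []
        rw [← ENNReal.ofReal_mul (by positivity)]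
        refine ENNReal.ofReal_le_ofReal (hω.le_W hn0 ?_)
        by_contra hc
        have h4 : ω ‖h y‖ ≤ ω n := hω.mono (norm_nonneg (h y)) hn0 (not_le.1 hc).le
        exact hy (h4.trans_lt hk2)
      · rw [indicator_of_notMem hy]; simp
    have h4 : (((j + 1 : ℕ) : ℝ) + 1) * (ω n / Real.log (2 + n) * (ε / 10)) ≤ ε * ω n / 2 := by
      calc _ ≤ 5 * Real.log (2 + n) * (ω n / Real.log (2 + n) * (ε / 10)) :=
            mul_le_mul_of_nonneg_right hJ2 (by positivity)
        _ = _ := by field_simp; norm_num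
    have h5 := c2 k (-(M : ℤ)) N
    have h6 : l0 * 2 ^ k ≤ ε * ω n / 2 := by rw [hl0]; nlinarith
    have h7 : PS (-(M : ℤ)) N h x = PS (-(M : ℤ)) N ((D k).indicator h) x +
        PS (-(M : ℤ)) N ((D k)ᶜ.indicator h) x := by
      rw [← PS_add _ _ (ih.indicator (mD k)) (ih.indicator (mD k).compl), indicator_self_add_compl]
    have h8 : ε * ω n < ‖PS (-(M : ℤ)) N h x‖ := hx
    rw [h7] at h8
    have h9 := norm_add_le (PS (-(M : ℤ)) N ((D k).indicator h) x)
      (PS (-(M : ℤ)) N ((D k)ᶜ.indicator h) x)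
    linarith
  refine (measure_mono hsub).trans ((measure_union_le _ _).trans ?_)
  rw [add_mul]
  refine add_le_add (N091.hl G (by positivity)) ((measure_iUnion_le _).trans ?_)
  calc ∑' k : ℕ, haarAddCircle {x | ∃ M N : ℤ, l0 * 2 ^ k < ‖PS M N ((D k).indicator h) x‖}
      ≤ ∑' k : ℕ, ENNReal.ofReal C * mP haarAddCircle ((D k).indicator h) (l0 * 2 ^ k) :=
        ENNReal.tsum_le_tsum fun k => hC _ (ih.indicator (mD k)) _ (by positivity)
    _ = ENNReal.ofReal C * ∫⁻ y, ∑' k : ℕ,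
          ENNReal.ofReal (Ph (‖(D k).indicator h y‖ / (l0 * 2 ^ k))) ∂haarAddCircle := by
        rw [ENNReal.tsum_mul_left, lintegral_tsum]
        · rfl
        · exact fun k => (Ph_meas.comp
            ((mh.indicator (mD k)).norm.measurable.div_const _)).ennreal_ofReal.aemeasurable
    _ ≤ ENNReal.ofReal C * ∫⁻ y, ENNReal.ofReal (max 1 (1 / l0) * (4 * ω 0 / l0)) * G y
          ∂haarAddCircle := by
        refine mul_le_mul_right (lintegral_mono fun y => ?_) _
        refine le_trans (le_of_eq (tsum_congr fun k => ?_)) (hω.tsum_le hl (norm_nonneg (h y)))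
        congr 3
        by_cases hy : y ∈ D k
        · rw [indicator_of_mem hy]; exact (if_pos hy).symm
        · rw [indicator_of_notMem hy, norm_zero]; exact (if_neg hy).symm
    _ = _ := by rw [lintegral_const_mul _ mG, mul_assoc]

theorem growth0 [CompleteSpace E] {C : ℝ} (h0 : MaxC C T ℂ) (hC : MaxC C T E) (hω : Wt ω)
    {g : AddCircle T → E} (mg : StronglyMeasurable g) (ig : Integrable g haarAddCircle)
    (hW : ∫⁻ y, ENNReal.ofReal (W ω ‖g y‖) ∂haarAddCircle ≠ ∞) :
    ∀ᵐ x ∂haarAddCircle, Tendsto (fun p : ℕ × ℕ =>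
      ‖PS (-(p.1 : ℤ)) p.2 g x - g x‖ / ω (p.1 + p.2)) atTop (𝓝 0) := by
  have w0 := hω.pos 0 le_rfl
  have mn : Measurable fun y => ‖g y‖ := mg.norm.measurable
  refine close0 haarAddCircle atTop (fun (p : ℕ × ℕ) => PS (-(p.1 : ℤ)) p.2 g) g
    (fun p => ω (p.1 + p.2)) w0 (fun p => hω.mono (le_refl (0:ℝ)) (by simp; positivity)
      (by positivity)) fun δ hδ η hη => ?_
  obtain ⟨K, hK, hwk⟩ := wk hC hω hδ
  set c : ℝ := ω 0 / Real.log (2 + 0) / δ with hc
  have hc0 : 0 ≤ c := by have := log2_pos (le_refl (0:ℝ)); positivity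
  obtain ⟨ζ, hζ, h1⟩ := small_mul (C := K + ENNReal.ofReal c) (by finiteness) hη
  obtain ⟨H, hH⟩ := tail_small haarAddCircle (hω.measW mn fun _ => norm_nonneg _) hW mn hζ
  set D : Set (AddCircle T) := {x | ‖g x‖ ≤ H} with hD
  have mD : MeasurableSet D := measurableSet_le mn measurable_const
  have e0 : ∫⁻ y, ENNReal.ofReal (W ω ‖Dᶜ.indicator g y‖) ∂haarAddCircle ≤ ζ := by
    refine le_trans (le_of_eq (lintegral_congr fun y => ?_)) hH
    by_cases hy : y ∈ Dᶜ
    · rw [indicator_of_mem hy, indicator_of_mem hy]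
    · rw [indicator_of_notMem hy, indicator_of_notMem hy]; simp [W]
  have hb : MemLp (D.indicator g) 2 haarAddCircle :=
    MemLp.of_bound (mg.indicator mD).aestronglyMeasurable H (Eventually.of_forall fun y => by
      by_cases hy : y ∈ D
      · rw [indicator_of_mem hy]; exact hy
      · rw [indicator_of_notMem hy]; simp)
  refine ⟨fun p => PS (-(p.1 : ℤ)) p.2 (D.indicator g), D.indicator g, (good_L2 h0 hC hb).2, ?_, ?_⟩
  · have e : ∀ (p : ℕ × ℕ) x, PS (-(p.1 : ℤ)) p.2 g x - PS (-(p.1 : ℤ)) p.2 (D.indicator g) x =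
        PS (-(p.1 : ℤ)) p.2 (Dᶜ.indicator g) x := by
      intro p x
      have := PS_add (-(p.1 : ℤ)) p.2 (ig.indicator mD) (ig.indicator mD.compl) x
      rw [indicator_self_add_compl] at this
      rw [this]; abel
    simp only [e]
    exact (hwk _ (mg.indicator mD.compl) (ig.indicator mD.compl)).trans
      ((mul_le_mul' le_self_add e0).trans h1)
  · have mt : Measurable fun y => ‖Dᶜ.indicator g y‖ := (mg.indicator mD.compl).norm.measurable
    have h2 := mul_meas_ge_le_lintegral₀ (μ := haarAddCircle)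
      ((hω.measW mt fun _ => norm_nonneg _).const_mul (ENNReal.ofReal c)).aemeasurable 1
    rw [one_mul, lintegral_const_mul _ (hω.measW mt fun _ => norm_nonneg _)] at h2
    refine le_trans (measure_mono fun y hy => ?_) (h2.trans ((mul_le_mul' le_add_self e0).trans h1))
    have h3 : g y - D.indicator g y = Dᶜ.indicator g y := by
      rw [indicator_compl]; rfl
    have h4 : δ < ‖g y - D.indicator g y‖ := hy
    rw [h3] at h4
    have h5 := hω.le_W (le_refl (0:ℝ)) (norm_nonneg (Dᶜ.indicator g y))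
    show 1 ≤ ENNReal.ofReal c * ENNReal.ofReal (W ω ‖Dᶜ.indicator g y‖)
    rw [← ENNReal.ofReal_mul hc0, ← ENNReal.ofReal_one]
    refine ENNReal.ofReal_le_ofReal ?_
    rw [hc, div_mul_eq_mul_div, one_le_div hδ]
    linarith

theorem growth [CompleteSpace E] {C : ℝ} (h0 : MaxC C T ℂ) (hC : MaxC C T E) (hω : Wt ω)
    {f : AddCircle T → E} (hf : Integrable f haarAddCircle) {U : Set (AddCircle T)} (hU : IsOpen U)
    (hW : IntegrableOn (fun x => ‖f x‖ * Real.log (2 + ‖f x‖) / ω ‖f x‖) U haarAddCircle) :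
    ∀ᵐ x ∂haarAddCircle, x ∈ U → Tendsto (fun p : ℕ × ℕ =>
      ‖PS (-(p.1 : ℤ)) p.2 f x - f x‖ / ω (p.1 + p.2)) atTop (𝓝 0) := by
  have w0 := hω.pos 0 le_rfl
  have mU := hU.measurableSet
  set f' := hf.1.mk f with hf'
  have mf : StronglyMeasurable f' := hf.1.stronglyMeasurable_mk
  have hff : f =ᵐ[haarAddCircle] f' := hf.1.ae_eq_mk
  have if' : Integrable f' haarAddCircle := hf.congr hff
  have hW' : ∫⁻ y, ENNReal.ofReal (W ω ‖U.indicator f' y‖) ∂haarAddCircle ≠ ∞ := by
    have h1 := ((integrable_indicator_iff mU).2 hW).2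
    refine ne_top_of_le_ne_top (LT.lt.ne h1) (lintegral_mono_ae ?_)
    filter_upwards [hff] with y hy
    by_cases hy' : y ∈ U
    · rw [indicator_of_mem hy', indicator_of_mem hy', ← hy]
      exact Real.ofReal_le_enorm _
    · rw [indicator_of_notMem hy']; simp [W]
  filter_upwards [growth0 h0 hC hω (mf.indicator mU) (if'.indicator mU) hW', hff] with x h1 h2 hx
  have h3 := localize (if'.indicator mU.compl) hU
    (fun y hy => indicator_of_notMem (notMem_compl_iff.2 hy) _) hx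
  have h4 := h1.add ((tendsto_zero_iff_norm_tendsto_zero.1 h3).div_const (ω 0))
  rw [zero_div, add_zero] at h4
  refine squeeze_zero (fun p => div_nonneg (norm_nonneg _) (hω.pos _ (by positivity)).le)
    (fun p => ?_) h4
  have hp := hω.pos (p.1 + p.2) (by positivity)
  have h5 : ω 0 ≤ ω (p.1 + p.2) := hω.mono (le_refl (0:ℝ)) (by simp; positivity) (by positivity)
  have h6 := PS_add (-(p.1 : ℤ)) p.2 (if'.indicator mU) (if'.indicator mU.compl) x
  rw [indicator_self_add_compl] at h6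
  rw [PS_congr _ _ hff, h6, h2, indicator_of_mem hx, add_sub_right_comm]
  refine (div_le_div_of_nonneg_right (norm_add_le _ _) hp.le).trans ?_
  rw [add_div]
  exact add_le_add le_rfl (div_le_div_of_nonneg_left (norm_nonneg _) w0 h5)

end growth

end Vale.Agent.N091
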