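import Vale.Agent.N091.Circ

/-!
# P091, second hand-in: the real line (transference from large circles)
-/

open MeasureTheory AddCircle Set Filter Topology Metric
open scoped ENNReal NNReal FourierTransform

namespace Vale.Agent.N091

open Vale.Agent.P091.H253

variable {E : Type*} [NormedAddCommGroup E] [NormedSpace ℂ E]

/-- the Fourier integral over the frequencies in `[a, b]` -/
noncomputable def LS (a b : ℝ) (f : ℝ → E) (x : ℝ) : E :=
  ∫ ξ in a..b, Complex.exp (2 * Real.pi * Complex.I * x * ξ) • 𝓕 f ξ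

/-- its kernel -/
noncomputable def LK (a b t : ℝ) : ℂ := ∫ ξ in a..b, Complex.exp (2 * Real.pi * Complex.I * t * ξ)

/-- the kernel on a circle of length `T` -/
noncomputable def RK (T : ℝ) (M N : ℤ) (t : ℝ) : ℂ :=
  (T : ℂ)⁻¹ * ∑ k ∈ Finset.Icc M N, Complex.exp (2 * Real.pi * Complex.I * k * t / T)

theorem norm_ex (s t : ℝ) : ‖Complex.exp (2 * Real.pi * Complex.I * s * t)‖ = 1 := by
  have : 2 * Real.pi * Complex.I * s * t = ((2 * Real.pi * s * t : ℝ) : ℂ) * Complex.I := by
    push_cast; ring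
  rw [this, Complex.norm_exp_ofReal_mul_I]

theorem four_eq (f : ℝ → E) (x ξ : ℝ) : Complex.exp (2 * Real.pi * Complex.I * x * ξ) • 𝓕 f ξ =
    ∫ y, Complex.exp (2 * Real.pi * Complex.I * ((x - y : ℝ) : ℂ) * ξ) • f y := by
  rw [Real.fourier_real_eq_integral_exp_smul, ← integral_smul]
  refine integral_congr_ae (Eventually.of_forall fun y => ?_)
  simp only []
  rw [smul_smul, ← Complex.exp_add]
  congr 2
  push_cast; ring

theorem LS_kernel [CompleteSpace E] {f : ℝ → E} (hf : Integrable f) (a b x : ℝ) :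
    LS a b f x = ∫ y, LK a b (x - y) • f y := by
  wlog hab : a ≤ b generalizing a b
  · have h := this b a (not_le.1 hab).le
    unfold LS LK at h ⊢
    rw [intervalIntegral.integral_symm, h, ← integral_neg]
    refine integral_congr_ae (Eventually.of_forall fun y => ?_)
    simp only []
    rw [← neg_smul, ← intervalIntegral.integral_symm]
  unfold LS LK
  simp_rw [four_eq, intervalIntegral.integral_of_le hab]
  rw [integral_integral_swap]
  · refine integral_congr_ae (Eventually.of_forall fun y => ?_)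
    exact integral_smul_const _ _
  · refine (hf.comp_snd (volume.restrict (Ioc a b))).bdd_smul 1
      (φ := fun p : ℝ × ℝ => Complex.exp (2 * Real.pi * Complex.I * ((x - p.2 : ℝ) : ℂ) * p.1))
      (Continuous.aestronglyMeasurable (by fun_prop)) (Eventually.of_forall fun p => ?_)
    rw [norm_ex]

theorem LK_cont (a b : ℝ) : Continuous (LK a b) := by
  unfold LK
  exact intervalIntegral.continuous_parametric_intervalIntegral_of_continuous' (by fun_prop) a b

theorem LK_le (a b t : ℝ) : ‖LK a b t‖ ≤ |b - a| := by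
  unfold LK
  have := intervalIntegral.norm_integral_le_of_norm_le_const (a := a) (b := b) (C := 1)
    (f := fun ξ : ℝ => Complex.exp (2 * Real.pi * Complex.I * t * ξ))
    fun ξ _ => (norm_ex t ξ).le
  rwa [one_mul] at this

theorem LK_int {f : ℝ → E} (hf : Integrable f) (a b x : ℝ) :
    Integrable fun y => LK a b (x - y) • f y :=
  hf.bdd_smul |b - a| ((LK_cont a b).comp (by fun_prop)).aestronglyMeasurable
    (Eventually.of_forall fun y => LK_le a b _)

theorem LS_add [CompleteSpace E] (a b : ℝ) {f g : ℝ → E} (hf : Integrable f) (hg : Integrable g)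
    (x : ℝ) : LS a b (f + g) x = LS a b f x + LS a b g x := by
  rw [LS_kernel (hf.add hg), LS_kernel hf, LS_kernel hg,
    ← integral_add (LK_int hf a b x) (LK_int hg a b x)]
  simp_rw [Pi.add_apply, smul_add]

theorem LS_congr (a b : ℝ) {f g : ℝ → E} (h : f =ᵐ[volume] g) : LS a b f = LS a b g := by
  have : 𝓕 f = 𝓕 g := by
    ext ξ
    rw [Real.fourier_real_eq_integral_exp_smul, Real.fourier_real_eq_integral_exp_smul]
    refine integral_congr_ae ?_
    filter_upwards [h] with y hy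
    rw [hy]
  unfold LS; rw [this]

theorem LK_mul (a b t : ℝ) : LK a b t * (2 * Real.pi * Complex.I * t) =
    Complex.exp (2 * Real.pi * Complex.I * t * b) - Complex.exp (2 * Real.pi * Complex.I * t * a) := by
  rcases eq_or_ne t 0 with rfl | ht
  · simp
  have hc : (2 * Real.pi * Complex.I * t : ℂ) ≠ 0 :=
    mul_ne_zero Complex.two_pi_I_ne_zero (by exact_mod_cast ht)
  unfold LK
  rw [integral_exp_mul_complex hc, div_mul_cancel₀ _ hc]

theorem RK_mul {T : ℝ} (hT : 0 < T) {M N : ℤ} (h : M ≤ N + 1) (t : ℝ) :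
    RK T M N t * (T * (Complex.exp (2 * Real.pi * Complex.I * t * ((1 / T : ℝ) : ℂ)) - 1)) =
      Complex.exp (2 * Real.pi * Complex.I * t * ((((N + 1 : ℤ) : ℝ) / T : ℝ) : ℂ)) -
        Complex.exp (2 * Real.pi * Complex.I * t * (((M : ℝ) / T : ℝ) : ℂ)) := by
  have hT' : (T : ℂ) ≠ 0 := by exact_mod_cast hT.ne'
  rw [← tele (fun k : ℤ => Complex.exp (2 * Real.pi * Complex.I * t * (((k : ℝ) / T : ℝ) : ℂ))) h]
  unfold RK
  rw [mul_mul_mul_comm, inv_mul_cancel₀ hT', one_mul, Finset.sum_mul]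
  refine Finset.sum_congr rfl fun k _ => ?_
  rw [mul_sub, mul_one, ← Complex.exp_add]
  congr 2
  · push_cast; ring
  · push_cast; ring

theorem RK_le {T : ℝ} (hT : 0 < T) (M N : ℤ) (t : ℝ) :
    ‖RK T M N t‖ ≤ (Finset.Icc M N).card / T := by
  unfold RK
  rw [norm_mul, norm_inv, Complex.norm_real, Real.norm_of_nonneg hT.le, inv_mul_eq_div]
  refine div_le_div_of_nonneg_right ?_ hT.le
  refine (norm_sum_le _ _).trans ((Finset.sum_le_card_nsmul _ _ 1 fun k _ => ?_).trans ?_)
  · have : 2 * Real.pi * Complex.I * k * t / T =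
        2 * Real.pi * Complex.I * ((k : ℝ) : ℂ) * ((t / T : ℝ) : ℂ) := by push_cast; ring
    rw [this, norm_ex]
  · rw [nsmul_eq_mul, mul_one]

theorem floor_lim (a : ℝ) :
    Tendsto (fun n : ℕ => ((⌊a * ((n:ℝ) + 1)⌋ : ℤ) : ℝ) / ((n:ℝ) + 1)) atTop (𝓝 a) := by
  have h1 : Tendsto (fun n : ℕ => a - 1 / ((n:ℝ) + 1)) atTop (𝓝 a) := by
    simpa using (tendsto_const_nhds (x := a)).sub (tendsto_one_div_add_atTop_nhds_zero_nat (𝕜 := ℝ))
  refine tendsto_of_tendsto_of_tendsto_of_le_of_le h1 tendsto_const_nhds (fun n => ?_) fun n => ?_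
  · have h0 : (0:ℝ) < (n:ℝ) + 1 := by positivity
    simp only []
    rw [le_div_iff₀ h0, sub_mul, one_div_mul_cancel h0.ne']
    exact (Int.sub_one_lt_floor _).le
  · have h0 : (0:ℝ) < (n:ℝ) + 1 := by positivity
    simp only []
    rw [div_le_iff₀ h0]
    exact Int.floor_le _

theorem slope_lim (c : ℂ) : Tendsto (fun n : ℕ => (((n:ℝ) + 1 : ℝ) : ℂ) *
    (Complex.exp (c * ((1 / ((n:ℝ) + 1) : ℝ) : ℂ)) - 1)) atTop (𝓝 c) := by
  have D : HasDerivAt (fun y : ℝ => Complex.exp (c * y)) c 0 := by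
    have := ((hasDerivAt_id ((0:ℝ) : ℂ)).const_mul c).cexp.comp_ofReal
    simpa using this
  have h1 : Tendsto (fun n : ℕ => 1 / ((n:ℝ) + 1)) atTop (𝓝[≠] 0) :=
    tendsto_nhdsWithin_iff.2 ⟨tendsto_one_div_add_atTop_nhds_zero_nat,
      Eventually.of_forall fun n => by simp; positivity⟩
  refine (D.tendsto_slope_zero.comp h1).congr fun n => ?_
  simp

theorem RK_lim {a b : ℝ} (hab : a ≤ b) {t : ℝ} (ht : t ≠ 0) :
    Tendsto (fun n : ℕ => RK ((n:ℝ) + 1) ⌊a * ((n:ℝ) + 1)⌋ (⌊b * ((n:ℝ) + 1)⌋ - 1) t) atTop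
      (𝓝 (LK a b t)) := by
  set c : ℂ := 2 * Real.pi * Complex.I * t with hc
  have hc0 : c ≠ 0 := mul_ne_zero Complex.two_pi_I_ne_zero (by exact_mod_cast ht)
  have h1 := slope_lim c
  have h2 : ∀ u : ℝ, Tendsto (fun n : ℕ => Complex.exp (c *
      ((((⌊u * ((n:ℝ) + 1)⌋ : ℤ) : ℝ) / ((n:ℝ) + 1) : ℝ) : ℂ))) atTop (𝓝 (Complex.exp (c * u))) :=
    fun u => ((show Continuous fun s : ℝ => Complex.exp (c * s) by fun_prop).tendsto u).comp
      (floor_lim u)
  have h3 := ((h2 b).sub (h2 a)).div h1 hc0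
  rw [← LK_mul, ← hc, mul_div_cancel_right₀ _ hc0] at h3
  refine h3.congr' ?_
  filter_upwards [h1.eventually_ne hc0] with n hn
  have h0 : (0:ℝ) < (n:ℝ) + 1 := by positivity
  have h4 := RK_mul h0 (M := ⌊a * ((n:ℝ) + 1)⌋) (N := ⌊b * ((n:ℝ) + 1)⌋ - 1)
    (by rw [sub_add_cancel]; exact Int.floor_mono (by gcongr)) t
  rw [sub_add_cancel] at h4
  simp only [Pi.div_apply]
  rw [div_eq_iff hn, h4]

theorem LS_lim [CompleteSpace E] {f : ℝ → E} (hf : Integrable f) {a b : ℝ} (hab : a ≤ b) (x : ℝ) :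
    Tendsto (fun n : ℕ => ∫ y in Ioc (-((n:ℝ) + 1) / 2) (-((n:ℝ) + 1) / 2 + ((n:ℝ) + 1)),
      RK ((n:ℝ) + 1) ⌊a * ((n:ℝ) + 1)⌋ (⌊b * ((n:ℝ) + 1)⌋ - 1) (x - y) • f y) atTop
      (𝓝 (LS a b f x)) := by
  rw [LS_kernel hf]
  simp_rw [← integral_indicator measurableSet_Ioc]
  refine tendsto_integral_of_dominated_convergence (fun y => (b - a + 1) * ‖f y‖) (fun n => ?_)
    (hf.norm.const_mul _) (fun n => Eventually.of_forall fun y => ?_) ?_
  · refine AEStronglyMeasurable.indicator (AEStronglyMeasurable.smul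
      (Continuous.aestronglyMeasurable ?_) hf.1) measurableSet_Ioc
    unfold RK; fun_prop
  · refine (norm_indicator_le_norm_self _ _).trans ?_
    have h0 : (0:ℝ) < (n:ℝ) + 1 := by positivity
    rw [norm_smul]
    refine mul_le_mul_of_nonneg_right ((RK_le h0 _ _ _).trans ?_) (norm_nonneg _)
    have h1 : ⌊a * ((n:ℝ) + 1)⌋ ≤ ⌊b * ((n:ℝ) + 1)⌋ := Int.floor_mono (by gcongr)
    have h2 : (((Finset.Icc ⌊a * ((n:ℝ) + 1)⌋ (⌊b * ((n:ℝ) + 1)⌋ - 1)).card : ℤ) : ℝ) =
        ((⌊b * ((n:ℝ) + 1)⌋ - ⌊a * ((n:ℝ) + 1)⌋ : ℤ) : ℝ) := by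
      congr 1
      rw [Int.card_Icc]; omega
    rw [Int.cast_natCast, Int.cast_sub] at h2
    rw [h2, div_le_iff₀ h0]
    have h3 := Int.floor_le (b * ((n:ℝ) + 1))
    have h4 := Int.sub_one_lt_floor (a * ((n:ℝ) + 1))
    have h5 : (0:ℝ) ≤ n := Nat.cast_nonneg n
    nlinarith
  · have h1 : ∀ᵐ y : ℝ, y ≠ x := by simp [ae_iff]
    filter_upwards [h1] with y hy
    refine ((RK_lim hab (sub_ne_zero.2 hy.symm)).smul_const (f y)).congr' ?_
    filter_upwards [eventually_ge_atTop ⌈2 * |y|⌉₊] with n hn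
    have h2 : 2 * |y| ≤ n := (Nat.le_ceil _).trans (by exact_mod_cast hn)
    rw [indicator_of_mem]
    constructor <;> linarith [le_abs_self y, neg_abs_le y]

theorem transfer {C T : ℝ} [hT : Fact (0 < T)] (hC : MaxC C T E) {f : ℝ → E} (hf : Integrable f)
    (t : ℝ) {lam : ℝ} (hlam : 0 < lam) :
    volume {x | x ∈ Ioc t (t + T) ∧ ∃ M N : ℤ,
      lam < ‖∫ y in Ioc t (t + T), RK T M N (x - y) • f y‖} ≤
      ENNReal.ofReal C * mP volume f lam := by
  have hT0 := hT.out
  set F : AddCircle T → E := liftIoc T t f with hF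
  have mp : MeasurePreserving (fun z : AddCircle T => ((equivIoc T t z : Ioc t (t + T)) : ℝ))
      volume (volume.restrict (Ioc t (t + T))) :=
    (measurePreserving_subtype_coe measurableSet_Ioc).comp (AddCircle.measurePreserving_equivIoc T)
  have iF0 : Integrable F volume := mp.integrable_comp_of_integrable hf.integrableOn
  have iF : Integrable F haarAddCircle := by
    rw [volume_eq_smul_haarAddCircle] at iF0
    exact (integrable_smul_measure (by simpa using hT0) ENNReal.ofReal_ne_top).1 iF0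
  have hPS : ∀ (M N : ℤ) (x : ℝ), PS M N F x = ∫ y in Ioc t (t + T), RK T M N (x - y) • f y := by
    intro M N x
    rw [PS_kernel M N iF, integral_haarAddCircle, ← AddCircle.integral_preimage T t,
      ← integral_smul]
    refine setIntegral_congr_fun measurableSet_Ioc fun y hy => ?_
    simp only [hF]
    rw [liftIoc_coe_apply hy, ← Complex.coe_smul, smul_smul, ← AddCircle.coe_sub]
    unfold RK DK
    simp_rw [fourier_coe_apply]
    push_cast; rfl
  have h1 := hC F iF lam hlam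
  have h2 := AddCircle.add_projection_respects_measure T t (PS_set_meas F lam)
  have h3 : {x | x ∈ Ioc t (t + T) ∧ ∃ M N : ℤ,
      lam < ‖∫ y in Ioc t (t + T), RK T M N (x - y) • f y‖} =
      QuotientAddGroup.mk ⁻¹' {z : AddCircle T | ∃ M N : ℤ, lam < ‖PS M N F z‖} ∩ Ioc t (t + T) := by
    ext x
    simp only [mem_ofPred_eq, mem_inter_iff, mem_preimage, ← hPS]
    exact and_comm
  rw [h3, ← h2, volume_eq_smul_haarAddCircle, Measure.smul_apply, smul_eq_mul]
  refine (mul_le_mul_right h1 _).trans ?_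
  rw [mul_left_comm]
  refine mul_le_mul_right ?_ _
  unfold mP
  rw [← smul_eq_mul, ← lintegral_smul_measure, ← volume_eq_smul_haarAddCircle,
    ← AddCircle.lintegral_preimage T t]
  refine le_trans (le_of_eq (setLIntegral_congr_fun measurableSet_Ioc fun y hy => ?_))
    (setLIntegral_le_lintegral (Ioc t (t + T)) _)
  simp only [hF]
  rw [liftIoc_coe_apply hy]

/-- the distributional inequality on the line -/
theorem max_line [CompleteSpace E] {C : ℝ} (hC : ∀ (T : ℝ) [Fact (0 < T)], MaxC C T E)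
    (f : ℝ → E) (hf : Integrable f) (lam : ℝ) (hlam : 0 < lam) :
    volume {x | ∃ a b : ℝ, lam < ‖LS a b f x‖} ≤ ENNReal.ofReal C * mP volume f lam := by
  refine meas_liminf _ (B := fun n : ℕ => {x | x ∈ Ioc (-((n:ℝ) + 1) / 2)
    (-((n:ℝ) + 1) / 2 + ((n:ℝ) + 1)) ∧ ∃ M N : ℤ, lam < ‖∫ y in Ioc (-((n:ℝ) + 1) / 2)
      (-((n:ℝ) + 1) / 2 + ((n:ℝ) + 1)), RK ((n:ℝ) + 1) M N (x - y) • f y‖}) ?_ fun n => ?_
  · rintro x ⟨a, b, hx⟩
    wlog hab : a ≤ b generalizing a b
    · refine this b a ?_ (not_le.1 hab).le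
      unfold LS at hx ⊢
      rwa [intervalIntegral.integral_symm, norm_neg]
    filter_upwards [(LS_lim hf hab x).norm.eventually_const_lt hx,
      eventually_ge_atTop ⌈2 * |x|⌉₊] with n h1 hn
    have h2 : 2 * |x| ≤ n := (Nat.le_ceil _).trans (by exact_mod_cast hn)
    refine ⟨?_, _, _, h1⟩
    constructor <;> linarith [le_abs_self x, neg_abs_le x]
  · have : Fact (0 < (n:ℝ) + 1) := ⟨by positivity⟩
    exact transfer (hC _) hf _ hlam

theorem fst_top : Tendsto (fun p : ℝ × ℝ => p.1) atTop atTop := by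
  rw [← prod_atTop_atTop_eq]; exact tendsto_fst

theorem snd_top : Tendsto (fun p : ℝ × ℝ => p.2) atTop atTop := by
  rw [← prod_atTop_atTop_eq]; exact tendsto_snd

theorem localize_line [CompleteSpace E] {h : ℝ → E} (hh : Integrable h) {U : Set ℝ}
    (hU : IsOpen U) (h0 : ∀ y ∈ U, h y = 0) {x : ℝ} (hx : x ∈ U) :
    Tendsto (fun p : ℝ × ℝ => LS (-p.1) p.2 h x) atTop (𝓝 0) := by
  obtain ⟨r, hr, hrU⟩ := Metric.isOpen_iff.1 hU x hx
  have low : ∀ y, y ∉ U → r ≤ ‖(2 * Real.pi * Complex.I * ((x - y : ℝ) : ℂ) : ℂ)‖ := by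
    intro y hy
    have h1 : r ≤ |x - y| := by
      by_contra hc
      exact hy (hrU (by rw [mem_ball, dist_comm, Real.dist_eq]; exact not_le.1 hc))
    rw [norm_mul, norm_mul, norm_mul, Complex.norm_I, Complex.norm_real, Complex.norm_real,
      Complex.norm_ofNat, Real.norm_eq_abs, Real.norm_eq_abs, abs_of_pos Real.pi_pos]
    nlinarith [Real.pi_gt_three, abs_nonneg (x - y)]
  set q : ℝ → E := fun y => (2 * Real.pi * Complex.I * ((x - y : ℝ) : ℂ) : ℂ)⁻¹ • h y with hq
  have iq : Integrable q := by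
    refine Integrable.mono' (hh.norm.const_mul r⁻¹) ?_ (Eventually.of_forall fun y => ?_)
    · have mc : Measurable fun y : ℝ => (2 * Real.pi * Complex.I * ((x - y : ℝ) : ℂ) : ℂ)⁻¹ :=
        (Continuous.measurable (by fun_prop)).inv
      exact mc.aestronglyMeasurable.smul hh.1
    · by_cases hy : y ∈ U
      · simp [hq, h0 y hy]
      · rw [hq]
        simp only []
        rw [norm_smul, norm_inv]
        exact mul_le_mul_of_nonneg_right (inv_anti₀ hr (low y hy)) (norm_nonneg _)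
  have e1 : ∀ y, h y = (2 * Real.pi * Complex.I * ((x - y : ℝ) : ℂ) : ℂ) • q y := by
    intro y
    by_cases hy : y ∈ U
    · simp [hq, h0 y hy]
    · have h1 : (2 * Real.pi * Complex.I * ((x - y : ℝ) : ℂ) : ℂ) ≠ 0 := by
        intro h2
        have := low y hy
        rw [h2, norm_zero] at this; linarith
      rw [hq]; simp only []
      rw [smul_smul, mul_inv_cancel₀ h1, one_smul]
  have ie : ∀ ξ : ℝ, Integrable fun y =>
      Complex.exp (2 * Real.pi * Complex.I * ((x - y : ℝ) : ℂ) * ξ) • q y := fun ξ =>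
    iq.bdd_smul 1 (Continuous.aestronglyMeasurable (by fun_prop))
      (Eventually.of_forall fun y => (norm_ex _ _).le)
  have e2 : ∀ a b : ℝ, LS a b h x = Complex.exp (2 * Real.pi * Complex.I * x * b) • 𝓕 q b -
      Complex.exp (2 * Real.pi * Complex.I * x * a) • 𝓕 q a := by
    intro a b
    rw [LS_kernel hh, four_eq, four_eq, ← integral_sub (ie b) (ie a)]
    refine integral_congr_ae (Eventually.of_forall fun y => ?_)
    simp only []
    rw [e1 y, smul_smul, LK_mul, sub_smul]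
  have h1 := tendsto_zero_iff_norm_tendsto_zero.1 (Real.zero_at_infty_fourier q)
  have h2 : Tendsto (fun p : ℝ × ℝ => p.2) atTop (cocompact ℝ) :=
    (snd_top).mono_right atTop_le_cocompact
  have h3 : Tendsto (fun p : ℝ × ℝ => -p.1) atTop (cocompact ℝ) :=
    (tendsto_neg_atTop_atBot.comp fst_top).mono_right atBot_le_cocompact
  have h4 := (h1.comp h2).add (h1.comp h3)
  rw [add_zero] at h4
  refine squeeze_zero_norm (fun p => ?_) h4
  rw [e2]
  refine (norm_sub_le _ _).trans (le_of_eq ?_)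
  rw [norm_smul, norm_smul, norm_ex, norm_ex, one_mul, one_mul]; rfl

theorem conv_smooth [CompleteSpace E] {g : ℝ → E} (h1 : HasCompactSupport g)
    (h2 : ContDiff ℝ (⊤ : ℕ∞) g) : Integrable g ∧
      ∀ x, Tendsto (fun p : ℝ × ℝ => LS (-p.1) p.2 g x) atTop (𝓝 (g x)) := by
  set φ := h1.toSchwartzMap h2 with hφ
  have ig : Integrable g := φ.integrable
  have iF : Integrable (𝓕 g) := (𝓕 φ).integrable
  refine ⟨ig, fun x => ?_⟩
  have i2 : Integrable fun ξ : ℝ => Complex.exp (2 * Real.pi * Complex.I * x * ξ) • 𝓕 g ξ :=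
    iF.bdd_smul 1 (Continuous.aestronglyMeasurable (by fun_prop))
      (Eventually.of_forall fun y => (norm_ex _ _).le)
  have : (atTop : Filter (ℝ × ℝ)).IsCountablyGenerated := by
    rw [← prod_atTop_atTop_eq]; infer_instance
  have h3 := intervalIntegral_tendsto_integral (l := (atTop : Filter (ℝ × ℝ))) i2
    (tendsto_neg_atTop_atBot.comp fst_top) snd_top
  have h4 : ∫ ξ : ℝ, Complex.exp (2 * Real.pi * Complex.I * x * ξ) • 𝓕 g ξ = g x := by
    rw [← ig.fourierInv_fourier_eq iF h2.continuous.continuousAt, Real.fourierInv_eq']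
    refine integral_congr_ae (Eventually.of_forall fun ξ => ?_)
    simp only [RCLike.inner_apply, conj_trivial]
    congr 2
    push_cast; ring
  rw [h4] at h3
  exact h3

theorem conv_line [CompleteSpace E] {C : ℝ} (hC : ∀ (T : ℝ) [Fact (0 < T)], MaxC C T E)
    {f : ℝ → E} (hf : Integrable f) {U : Set ℝ} (hU : IsOpen U)
    (hW : IntegrableOn (fun x => ‖f x‖ * Real.log (2 + ‖f x‖)) U) :
    ∀ᵐ x, x ∈ U → Tendsto (fun p : ℝ × ℝ => LS (-p.1) p.2 f x) atTop (𝓝 (f x)) := by
  have cl : ∀ g : ℝ → E, Integrable g → (∀ lam : ℝ, 0 < lam → ∀ η : ℝ≥0∞, 0 < η →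
      ∃ g', mP volume (g - g') lam ≤ η ∧ Integrable g' ∧
        ∀ᵐ x, Tendsto (fun p : ℝ × ℝ => LS (-p.1) p.2 g' x) atTop (𝓝 (g' x))) →
      ∀ᵐ x, Tendsto (fun p : ℝ × ℝ => LS (-p.1) p.2 g x) atTop (𝓝 (g x)) := by
    intro g hg happ
    refine close volume atTop (fun (p : ℝ × ℝ) f => LS (-p.1) p.2 f) (C := ENNReal.ofReal C)
      ENNReal.ofReal_ne_top (fun p f g x hf hg => LS_add _ _ hf hg x)
      (fun f hf lam hlam => le_trans (measure_mono ?_) (max_line hC f hf lam hlam)) hg happ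
    rintro x ⟨p, hp⟩
    exact ⟨_, _, hp⟩
  have c2 : ∀ g : ℝ → E, Integrable g → MemLp g 2 →
      ∀ᵐ x, Tendsto (fun p : ℝ × ℝ => LS (-p.1) p.2 g x) atTop (𝓝 (g x)) := by
    intro g hg hg2
    refine cl g hg fun lam hlam η hη => ?_
    obtain ⟨ε, hε, h1⟩ := app_L2 (E := E) (volume : Measure ℝ) hlam hη
    obtain ⟨φ, h2, h3, h4⟩ := hg2.exist_eLpNorm_sub_le (by norm_num) one_le_two hε
    exact ⟨φ, h1 _ h4, (conv_smooth h2 h3).1, Eventually.of_forall (conv_smooth h2 h3).2⟩
  have mU := hU.measurableSet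
  set f' := hf.1.mk f with hf'
  have mf : StronglyMeasurable f' := hf.1.stronglyMeasurable_mk
  have hff : f =ᵐ[volume] f' := hf.1.ae_eq_mk
  have if' : Integrable f' := hf.congr hff
  set g := U.indicator f' with hg
  have mg : StronglyMeasurable g := mf.indicator mU
  have ig : Integrable g := if'.indicator mU
  have mn : Measurable fun y => ‖g y‖ := mg.norm.measurable
  have hW' : ∫⁻ y, ENNReal.ofReal (Ph ‖g y‖) ≠ ∞ := by
    have h1 := ((integrable_indicator_iff mU).2 hW).2
    refine ne_top_of_le_ne_top (LT.lt.ne h1) (lintegral_mono_ae ?_)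
    filter_upwards [hff] with y hy
    by_cases hy' : y ∈ U
    · rw [hg, indicator_of_mem hy', indicator_of_mem hy', ← hy]
      exact (ENNReal.ofReal_le_ofReal (Ph_le_ph (norm_nonneg _))).trans (Real.ofReal_le_enorm _)
    · rw [hg, indicator_of_notMem hy']; simp [Ph]
  have c3 : ∀ᵐ x, Tendsto (fun p : ℝ × ℝ => LS (-p.1) p.2 g x) atTop (𝓝 (g x)) := by
    refine cl g ig fun lam hlam η hη => ?_
    set K : ℝ := max 1 (1 / lam) with hK
    have hK1 : 1 ≤ K := le_max_left _ _
    obtain ⟨ζ, hζ, h1⟩ := small_mul (C := ENNReal.ofReal (K ^ 2)) ENNReal.ofReal_ne_top hη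
    obtain ⟨H, hH⟩ := tail_small volume (Ph_meas.comp mn).ennreal_ofReal hW' mn hζ
    set D : Set ℝ := {x | ‖g x‖ ≤ H} with hD
    have mD : MeasurableSet D := measurableSet_le mn measurable_const
    refine ⟨D.indicator g, le_trans ?_ ((mul_le_mul_right hH _).trans h1), ig.indicator mD,
      c2 _ (ig.indicator mD) ?_⟩
    · unfold mP
      rw [← lintegral_const_mul' _ _ ENNReal.ofReal_ne_top]
      refine lintegral_mono fun y => ?_
      by_cases hy : y ∈ D
      · simp [indicator_of_mem hy, Ph]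
      · rw [Pi.sub_apply, indicator_of_notMem hy, sub_zero, indicator_of_mem (mem_compl hy),
          ← ENNReal.ofReal_mul (by positivity)]
        refine ENNReal.ofReal_le_ofReal (le_trans (Ph_mono (by positivity) ?_)
          (Ph_mul (norm_nonneg _) hK1))
        rw [div_eq_inv_mul, ← one_div]
        exact mul_le_mul_of_nonneg_right (le_max_right _ _) (norm_nonneg _)
    · rw [memLp_two_iff_integrable_sq_norm (ig.indicator mD).1]
      refine Integrable.mono' (ig.norm.const_mul H) ((ig.indicator mD).1.norm.pow 2)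
        (Eventually.of_forall fun y => ?_)
      by_cases hy : y ∈ D
      · rw [indicator_of_mem hy, Real.norm_of_nonneg (by positivity), sq]
        exact mul_le_mul_of_nonneg_right hy (norm_nonneg _)
      · rw [indicator_of_notMem hy]; simp; positivity
  filter_upwards [c3, hff] with x h1 h2 hx
  have h3 := localize_line (if'.indicator mU.compl) hU
    (fun y hy => indicator_of_notMem (notMem_compl_iff.2 hy) _) hx
  have h4 := h1.add h3
  rw [add_zero, hg, indicator_of_mem hx, ← h2] at h4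
  refine h4.congr fun p => ?_
  rw [← LS_add _ _ (if'.indicator mU) (if'.indicator mU.compl), indicator_self_add_compl,
    LS_congr _ _ hff]

/-- the weak `L¹` estimate in the Luxemburg norm, from the distributional inequality -/
theorem weak_lux {C T : ℝ} [Fact (0 < T)] (hC1 : 1 ≤ C) (hC : MaxC C T ℂ) (f : AddCircle T → ℂ)
    (a : ℝ) (hm : AEStronglyMeasurable f haarAddCircle) (ha : 0 < a)
    (hi : Integrable (fun x => ‖f x‖ / a * Real.log (2 + ‖f x‖ / a)) haarAddCircle)
    (h1 : ∫ x, ‖f x‖ / a * Real.log (2 + ‖f x‖ / a) ∂haarAddCircle ≤ 1) (lam : ℝ) (hlam : 0 < lam) :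
    haarAddCircle {x : AddCircle T | ∃ N : ℕ, lam <
      ‖∑ k ∈ Finset.Icc (-(N : ℤ)) (N : ℤ), fourierCoeff f k * fourier k x‖} ≤
      ENNReal.ofReal (C * a / lam) := by
  rcases le_total lam a with h | h
  · refine prob_le_one.trans ?_
    rw [← ENNReal.ofReal_one]
    refine ENNReal.ofReal_le_ofReal ((one_le_div hlam).2 ?_)
    nlinarith
  have h2 : 0 < Real.log 2 := Real.log_pos one_lt_two
  have hf : Integrable f haarAddCircle := by
    refine (hi.const_mul (a / Real.log 2)).mono' hm (Eventually.of_forall fun x => ?_)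
    have h3 : Real.log 2 ≤ Real.log (2 + ‖f x‖ / a) :=
      Real.log_le_log two_pos (le_add_of_nonneg_right (by positivity))
    calc ‖f x‖ = a / Real.log 2 * (‖f x‖ / a * Real.log 2) := by field_simp
      _ ≤ _ := by gcongr
  have hsub : {x : AddCircle T | ∃ N : ℕ, lam <
      ‖∑ k ∈ Finset.Icc (-(N : ℤ)) (N : ℤ), fourierCoeff f k * fourier k x‖} ⊆
      {x | ∃ M N : ℤ, lam < ‖PS M N f x‖} := by
    rintro x ⟨N, hN⟩
    exact ⟨-(N : ℤ), N, by rw [PS_eq_S]; exact hN⟩
  refine (measure_mono hsub).trans ((hC f hf lam hlam).trans ?_)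
  have h4 : mP haarAddCircle f lam ≤ ENNReal.ofReal (a / lam) * ∫⁻ x,
      ENNReal.ofReal (‖f x‖ / a * Real.log (2 + ‖f x‖ / a)) ∂haarAddCircle := by
    unfold mP
    rw [← lintegral_const_mul' _ _ ENNReal.ofReal_ne_top]
    refine lintegral_mono fun x => ?_
    rw [← ENNReal.ofReal_mul (by positivity)]
    refine ENNReal.ofReal_le_ofReal ((Ph_le_ph (by positivity)).trans ?_)
    have h5 : ‖f x‖ / lam = ‖f x‖ / a / (lam / a) := by field_simp
    rw [h5]
    refine (ph_div (by positivity) ((one_le_div ha).2 h)).trans (le_of_eq ?_)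
    unfold ph; field_simp
  rw [← ofReal_integral_eq_lintegral_ofReal hi (Eventually.of_forall fun x =>
    ph_nonneg (div_nonneg (norm_nonneg (f x)) ha.le))] at h4
  calc ENNReal.ofReal C * mP haarAddCircle f lam
      ≤ ENNReal.ofReal C * (ENNReal.ofReal (a / lam) * ENNReal.ofReal 1) :=
        mul_le_mul_right (h4.trans (mul_le_mul_right (ENNReal.ofReal_le_ofReal h1) _)) _
    _ = _ := by
        rw [ENNReal.ofReal_one, mul_one, ← ENNReal.ofReal_mul (by linarith), mul_div_assoc]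

end Vale.Agent.N091
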