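import Vale.Agent.N091.Sg

/-!
# P091, second hand-in: the distributional inequality on the circle

From the weak type estimate in the Luxemburg norm to
`μ {sup |S f| > λ} ≤ C ∫ Ph (|f| / λ)` (Stein's argument with `Ph (√u)` concave), then all
frequency intervals (modulation), all periods (scaling), Hilbert space values (Paley-Zygmund).
-/

open MeasureTheory AddCircle Set Filter Topology
open scoped ENNReal NNReal

namespace Vale.Agent.N091

open Vale.Agent.P091.H253

/-- the modular `∫ Ph (‖f‖ / lam)` -/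
noncomputable def mP {α E : Type*} [MeasurableSpace α] [NormedAddCommGroup E] (μ : Measure α)
    (f : α → E) (lam : ℝ) : ℝ≥0∞ := ∫⁻ x, ENNReal.ofReal (Ph (‖f x‖ / lam)) ∂μ

theorem mP_scale {α E : Type*} [MeasurableSpace α] [NormedAddCommGroup E] (μ : Measure α)
    (f : α → E) {lam K : ℝ} (hlam : 0 < lam) (hK : 1 ≤ K) :
    mP μ f (lam / K) ≤ ENNReal.ofReal (K ^ 2) * mP μ f lam := by
  unfold mP
  rw [← lintegral_const_mul' _ _ ENNReal.ofReal_ne_top]
  refine lintegral_mono fun x => ?_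
  rw [← ENNReal.ofReal_mul (by positivity)]
  refine ENNReal.ofReal_le_ofReal ?_
  have : ‖f x‖ / (lam / K) = K * (‖f x‖ / lam) := by field_simp
  rw [this]
  exact Ph_mul (by positivity) hK

theorem meas_liminf {α : Type*} [MeasurableSpace α] (μ : Measure α) {A : Set α} {B : ℕ → Set α}
    {c : ℝ≥0∞} (h : ∀ x ∈ A, ∀ᶠ n in atTop, x ∈ B n) (hB : ∀ n, μ (B n) ≤ c) : μ A ≤ c := by
  have h1 : A ⊆ ⋃ m : ℕ, {x | ∀ n, m ≤ n → x ∈ B n} := by
    intro x hx
    obtain ⟨m, hm⟩ := eventually_atTop.1 (h x hx)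
    exact mem_iUnion.2 ⟨m, hm⟩
  have hmono : Monotone fun m : ℕ => {x | ∀ n, m ≤ n → x ∈ B n} :=
    fun m m' hm x hx n hn => hx n (hm.trans hn)
  refine (measure_mono h1).trans ?_
  rw [hmono.measure_iUnion]
  refine iSup_le fun m => le_trans (measure_mono fun x hx => ?_) (hB m)
  exact hx m le_rfl

section stein

variable {T : ℝ} [hT : Fact (0 < T)]

theorem count {F : Set (AddCircle T)} (mF : MeasurableSet F) (h0 : haarAddCircle F ≠ 0) :
    ∃ (m : ℕ) (t : ℕ → AddCircle T), m * haarAddCircle F ≤ 2 ∧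
      ∀ A : (Fin m → Bool) → Set (AddCircle T), (∀ w, MeasurableSet (A w)) →
        (∀ x (i : Fin m) w, x - t i ∈ F → x ∈ A w ∨ x ∈ A (Function.update w i (!w i))) →
        (2:ℝ≥0∞) ^ m ≤ 4 * ∑ w, haarAddCircle (A w) := by
  set η : ℝ := (haarAddCircle F).toReal with hη
  have hFη : haarAddCircle F = ENNReal.ofReal η := (ENNReal.ofReal_toReal (measure_ne_top _ _)).symm
  have hη1 : η ≤ 1 := by
    rw [hη]; exact ENNReal.toReal_le_of_le_ofReal zero_le_one (by simpa using prob_le_one)
  have hη0 : 0 < η := ENNReal.toReal_pos h0 (measure_ne_top _ _)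
  set m : ℕ := ⌈1 / η⌉₊ with hm
  have hm1 : 1 / η ≤ m := Nat.le_ceil _
  have hm2 : (m : ℝ) < 1 / η + 1 := Nat.ceil_lt_add_one (by positivity)
  have hm3 : (m : ℝ) * η ≤ 2 := by
    have h2 : (1 / η + 1) * η = 1 + η := by field_simp
    nlinarith
  obtain ⟨t, ht⟩ := exists_cover mF.compl m
  refine ⟨m, t, ?_, fun A mA hA => ?_⟩
  · rw [hFη, ← ENNReal.ofReal_natCast, ← ENNReal.ofReal_mul (by positivity)]
    exact (ENNReal.ofReal_le_ofReal hm3).trans (by norm_num)
  set V : Set (AddCircle T) := {x | ∀ i < m, x - t i ∈ Fᶜ} with hV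
  have hV1 : haarAddCircle V ≤ ENNReal.ofReal (1 / 2) := by
    refine ht.trans ?_
    have h1 : haarAddCircle Fᶜ = ENNReal.ofReal (1 - η) := by
      rw [prob_compl_eq_one_sub mF, hFη, ENNReal.ofReal_sub _ hη0.le, ENNReal.ofReal_one]
    rw [h1, ← ENNReal.ofReal_pow (by linarith)]
    refine ENNReal.ofReal_le_ofReal ?_
    have h2 : 1 - η ≤ Real.exp (-η) := by linarith [Real.add_one_le_exp (-η)]
    calc (1 - η) ^ m ≤ Real.exp (-η) ^ m := pow_le_pow_left₀ (by linarith) h2 m
      _ = Real.exp (-(m * η)) := by rw [← Real.exp_nat_mul]; congr 1; ring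
      _ ≤ Real.exp (-1) := by
          refine Real.exp_le_exp.2 ?_
          have : 1 ≤ m * η := by
            rw [div_le_iff₀ hη0] at hm1; exact hm1
          linarith
      _ ≤ 1 / 2 := by
          rw [Real.exp_neg, one_div]
          exact inv_anti₀ two_pos (by linarith [Real.add_one_le_exp 1])
  have mV : MeasurableSet V := by
    have : V = ⋂ i ∈ Finset.range m, {x | x - t i ∈ Fᶜ} := by
      ext x; simp [hV]
    rw [this]
    exact Finset.measurableSet_biInter _ fun i _ => (measurable_id.sub_const (t i)) mF.compl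
  have hV2 : ENNReal.ofReal (1 / 2) ≤ haarAddCircle Vᶜ := by
    rw [prob_compl_eq_one_sub mV]
    have h3 : ENNReal.ofReal (1 / 2) = 1 - ENNReal.ofReal (1 / 2) := by
      rw [← ENNReal.ofReal_one, ← ENNReal.ofReal_sub _ (by norm_num)]; norm_num
    rw [h3]
    exact tsub_le_tsub_left hV1 _
  have pt : ∀ x ∈ Vᶜ, ((2:ℝ≥0∞) ^ m) ≤ 2 * ∑ w, (A w).indicator 1 x := by
    intro x hx
    have hx' : ∃ i < m, x - t i ∈ F := by
      by_contra h
      push Not at h
      exact hx fun i hi => h i hi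
    obtain ⟨i, hi, hxi⟩ := hx'
    set i0 : Fin m := ⟨i, hi⟩
    have hinv : Function.Involutive fun w : Fin m → Bool => Function.update w i0 (!w i0) := by
      intro w
      ext j
      by_cases hj : j = i0
      · subst hj; simp
      · simp [Function.update_of_ne hj]
    have h1 : ∑ w, (A w).indicator (1 : AddCircle T → ℝ≥0∞) x =
        ∑ w, (A (Function.update w i0 (!w i0))).indicator 1 x :=
      (Equiv.sum_comp hinv.toPerm
        (fun w : Fin m → Bool => (A w).indicator (1 : AddCircle T → ℝ≥0∞) x)).symm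
    have h2 : 2 * ∑ w, (A w).indicator (1 : AddCircle T → ℝ≥0∞) x =
        ∑ w, ((A w).indicator 1 x + (A (Function.update w i0 (!w i0))).indicator 1 x) := by
      rw [Finset.sum_add_distrib, ← h1, two_mul]
    rw [h2]
    have h3 : ∀ w : Fin m → Bool, (1 : ℝ≥0∞) ≤ (A w).indicator 1 x +
        (A (Function.update w i0 (!w i0))).indicator 1 x := by
      intro w
      rcases hA x i0 w hxi with h | h
      · rw [indicator_of_mem h]; exact le_self_add
      · rw [indicator_of_mem h]; exact le_add_self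
    calc (2:ℝ≥0∞) ^ m = ∑ _w : Fin m → Bool, (1:ℝ≥0∞) := by
          rw [Finset.sum_const, Finset.card_univ, Fintype.card_fun, Fintype.card_bool,
            Fintype.card_fin, nsmul_eq_mul, mul_one]; norm_num
      _ ≤ _ := Finset.sum_le_sum fun w _ => h3 w
  have fin : ((2:ℝ≥0∞) ^ m) * haarAddCircle Vᶜ ≤ 2 * ∑ w, haarAddCircle (A w) := by
    calc ((2:ℝ≥0∞) ^ m) * haarAddCircle Vᶜ = ∫⁻ _x in Vᶜ, (2:ℝ≥0∞) ^ m ∂haarAddCircle := by
          rw [setLIntegral_const]
      _ ≤ ∫⁻ x in Vᶜ, 2 * ∑ w, (A w).indicator 1 x ∂haarAddCircle :=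
          setLIntegral_mono (measurable_const.mul (Finset.measurable_sum _ fun w _ =>
            measurable_one.indicator (mA w))) pt
      _ ≤ ∫⁻ x, 2 * ∑ w, (A w).indicator 1 x ∂haarAddCircle := setLIntegral_le_lintegral _ _
      _ = 2 * ∑ w, haarAddCircle (A w) := by
          rw [lintegral_const_mul _ (Finset.measurable_sum _ fun w _ =>
            measurable_one.indicator (mA w)), lintegral_finsetSum _ fun w _ =>
            measurable_one.indicator (mA w)]
          congr 1
          exact Finset.sum_congr rfl fun w _ => lintegral_indicator_one (mA w)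
  have h5 : (2:ℝ≥0∞) * ENNReal.ofReal (1 / 2) = 1 := by
    rw [← ENNReal.ofReal_ofNat, ← ENNReal.ofReal_mul (by norm_num)]; norm_num
  calc (2:ℝ≥0∞) ^ m = 2 * (2 ^ m * ENNReal.ofReal (1 / 2)) := by
        rw [mul_left_comm, h5, mul_one]
    _ ≤ 2 * (2 * ∑ w, haarAddCircle (A w)) :=
        mul_le_mul_right ((mul_le_mul_right hV2 _).trans fin) _
    _ = _ := by rw [← mul_assoc]; norm_num

theorem md_le (g : AddCircle T → ℂ) :
    md g ≤ ∫⁻ x, ENNReal.ofReal (Ph ‖g x‖) ∂haarAddCircle + 1 := by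
  unfold md
  calc ∫⁻ x, ENNReal.ofReal (ph ‖g x‖) ∂haarAddCircle
      ≤ ∫⁻ x, (ENNReal.ofReal (Ph ‖g x‖) + 1) ∂haarAddCircle := by
        refine lintegral_mono fun x => ?_
        rw [← ENNReal.ofReal_one, ← ENNReal.ofReal_add (Ph_nonneg (norm_nonneg _)) zero_le_one]
        exact ENNReal.ofReal_le_ofReal (ph_le (norm_nonneg _))
    _ = _ := by rw [lintegral_add_right _ measurable_const]; simp

theorem stein {C : ℝ} (hC : 0 < C) (hw : ∀ g : AddCircle T → ℂ, Measurable g → md g ≤ 1 →
      ∀ lam : ℝ, 0 < lam → ∀ n : ℕ,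
        haarAddCircle {x | ENNReal.ofReal lam < SS n g x} ≤ ENNReal.ofReal (C / lam))
    {g : AddCircle T → ℂ} (mg : Measurable g) (n : ℕ) :
    haarAddCircle {x | ENNReal.ofReal (8 * C) < SS n g x} ≤
      2 * ∫⁻ x, ENNReal.ofReal (Ph ‖g x‖) ∂haarAddCircle := by
  set A0 := ∫⁻ x, ENNReal.ofReal (Ph ‖g x‖) ∂haarAddCircle with hA0
  rcases eq_or_ne A0 ∞ with h | hfin
  · rw [h]; simp
  have ig : Integrable g haarAddCircle :=
    (int_of_md mg (ne_top_of_le_ne_top (by finiteness) (md_le g))).2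
  set F : Set (AddCircle T) := {x | ENNReal.ofReal (8 * C) < SS n g x} with hF
  have mF : MeasurableSet F := measurableSet_lt measurable_const (SS_measurable n g)
  rcases eq_or_ne (haarAddCircle F) 0 with h | h0
  · rw [h]; exact zero_le
  obtain ⟨m, t, hm, hA⟩ := count mF h0
  set c : ℝ := 1 / (8 * C) with hc
  have hc0 : 0 < c := by positivity
  set Z : (Fin m → Bool) → AddCircle T → ℂ := fun w y => ∑ i : Fin m, sgn (w i) * g (y - t i)
    with hZ
  have mZ : ∀ w, Measurable (Z w) := fun w =>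
    Finset.measurable_sum _ fun i _ => measurable_const.mul (mg.comp (measurable_id.sub_const _))
  have hSS : ∀ (a : ℝ) w x, 0 ≤ a → SS n (hs g t m a w) x = ENNReal.ofReal a * SS n (Z w) x := by
    intro a w x ha
    have : hs g t m a w = fun y => (a : ℂ) * Z w y := rfl
    rw [this, SS_mul, ← ofReal_norm, Complex.norm_real, Real.norm_of_nonneg ha]
  set b : (Fin m → Bool) → ℝ≥0∞ := fun w => ∫⁻ x, ENNReal.ofReal (Ph ‖Z w x‖) ∂haarAddCircle
    with hb
  have mb : ∀ w, Measurable fun x => ENNReal.ofReal (Ph ‖Z w x‖) := fun w =>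
    (Ph_meas.comp (mZ w).norm).ennreal_ofReal
  have hsum : ∑ w, b w ≤ 2 ^ m * (m * A0) := by
    simp only [hb]
    rw [← lintegral_finsetSum _ fun w _ => mb w]
    have m1 : ∀ i : Fin m, Measurable fun x : AddCircle T => ENNReal.ofReal (Ph ‖g (x - t i)‖) :=
      fun i => (Ph_meas.comp (mg.comp (measurable_id.sub_const (t i))).norm).ennreal_ofReal
    calc ∫⁻ x, ∑ w, ENNReal.ofReal (Ph ‖Z w x‖) ∂haarAddCircle
        ≤ ∫⁻ x, 2 ^ m * ∑ i : Fin m, ENNReal.ofReal (Ph ‖g (x - t i)‖) ∂haarAddCircle := by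
          refine lintegral_mono fun x => ?_
          rw [← ENNReal.ofReal_sum_of_nonneg fun w _ => Ph_nonneg (norm_nonneg _),
            ← ENNReal.ofReal_sum_of_nonneg fun w _ => Ph_nonneg (norm_nonneg _),
            ← ENNReal.ofReal_ofNat, ← ENNReal.ofReal_pow (by norm_num),
            ← ENNReal.ofReal_mul (by positivity)]
          exact ENNReal.ofReal_le_ofReal (jensen' fun i => g (x - t i))
      _ = 2 ^ m * ∑ i : Fin m, ∫⁻ x, ENNReal.ofReal (Ph ‖g (x - t i)‖) ∂haarAddCircle := by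
          rw [lintegral_const_mul _ (Finset.measurable_sum _ fun i _ => m1 i),
            lintegral_finsetSum _ fun i _ => m1 i]
      _ = 2 ^ m * (m * A0) := by
          congr 1
          have : ∀ i : Fin m, ∫⁻ x, ENNReal.ofReal (Ph ‖g (x - t i)‖) ∂haarAddCircle = A0 :=
            fun i => lintegral_sub_right_eq_self (μ := haarAddCircle)
              (fun y => ENNReal.ofReal (Ph ‖g y‖)) (t i)
          simp_rw [this]
          rw [Finset.sum_const, Finset.card_univ, Fintype.card_fin, nsmul_eq_mul]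
  have bfin : ∀ w, b w ≠ ∞ := fun w => ne_top_of_le_ne_top (by finiteness)
    ((Finset.single_le_sum (f := b) (fun _ _ => zero_le) (Finset.mem_univ w)).trans hsum)
  have hAw : ∀ w, 8 * haarAddCircle {x | 1 < SS n (hs g t m c w) x} ≤ b w + 1 := by
    intro w
    set a : ℝ := (b w).toReal + 1 with ha
    have ha1 : 1 ≤ a := by rw [ha]; linarith [ENNReal.toReal_nonneg (a := b w)]
    have ha0 : 0 < a := by linarith
    have hab : ENNReal.ofReal a = b w + 1 := by
      rw [ha, ENNReal.ofReal_add ENNReal.toReal_nonneg zero_le_one, ENNReal.ofReal_toReal (bfin w),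
        ENNReal.ofReal_one]
    have h1 : md (hs g t m (1 / a) w) ≤ 1 := by
      have h2 : md (hs g t m (1 / a) w) ≤ ENNReal.ofReal (1 / a) * md (Z w) := by
        unfold md
        rw [← lintegral_const_mul' _ _ ENNReal.ofReal_ne_top]
        refine lintegral_mono fun x => ?_
        rw [← ENNReal.ofReal_mul (by positivity)]
        refine ENNReal.ofReal_le_ofReal ?_
        have h3 : ‖hs g t m (1 / a) w x‖ = ‖Z w x‖ / a := by
          show ‖((1 / a : ℝ) : ℂ) * Z w x‖ = _
          rw [norm_mul, Complex.norm_real, Real.norm_of_nonneg (by positivity)]; ring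
        rw [h3]
        exact (ph_div (norm_nonneg _) ha1).trans (le_of_eq (by ring))
      refine h2.trans ((mul_le_mul_right (md_le (Z w)) _).trans (le_of_eq ?_))
      show _ * (b w + 1) = 1
      rw [← hab, ← ENNReal.ofReal_mul (by positivity), one_div_mul_cancel ha0.ne',
        ENNReal.ofReal_one]
    have h4 := hw _ (hs_measurable mg t m (1 / a) w) h1 (8 * C / a) (by positivity) n
    have h5 : {x | 1 < SS n (hs g t m c w) x} ⊆
        {x | ENNReal.ofReal (8 * C / a) < SS n (hs g t m (1 / a) w) x} := by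
      intro x hx
      have h6 : 1 < SS n (hs g t m c w) x := hx
      show ENNReal.ofReal (8 * C / a) < SS n (hs g t m (1 / a) w) x
      rw [hSS _ _ _ hc0.le] at h6
      rw [hSS _ _ _ (by positivity)]
      have h7 : ENNReal.ofReal (8 * C / a) ≠ 0 := by
        rw [Ne, ENNReal.ofReal_eq_zero, not_le]; positivity
      have h8 := ENNReal.mul_lt_mul_right h7 ENNReal.ofReal_ne_top h6
      rw [mul_one, ← mul_assoc, ← ENNReal.ofReal_mul (by positivity)] at h8
      have h9 : 8 * C / a * c = 1 / a := by rw [hc]; field_simp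
      rwa [h9] at h8
    calc 8 * haarAddCircle {x | 1 < SS n (hs g t m c w) x}
        ≤ 8 * ENNReal.ofReal (C / (8 * C / a)) := mul_le_mul_right ((measure_mono h5).trans h4) _
      _ = b w + 1 := by
          rw [← hab, ← ENNReal.ofReal_ofNat, ← ENNReal.ofReal_mul (by norm_num)]
          congr 1; field_simp
  have h6 := hA (fun w => {x | 1 < SS n (hs g t m c w) x})
    (fun w => measurableSet_lt measurable_const (SS_measurable n _)) (fun x i w hx => by
      have h4 : ENNReal.ofReal (1 / c) < SS n g (x - t i) := by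
        rw [hc, one_div_one_div]; exact hx
      exact flip_bound n ig t m hc0 x h4 w)
  have h7 : (2:ℝ≥0∞) ^ m + 2 ^ m ≤ 2 ^ m * (m * A0) + 2 ^ m := by
    calc (2:ℝ≥0∞) ^ m + 2 ^ m = 2 * 2 ^ m := (two_mul _).symm
      _ ≤ 2 * (4 * ∑ w, haarAddCircle {x | 1 < SS n (hs g t m c w) x}) := mul_le_mul_right h6 _
      _ = ∑ w, 8 * haarAddCircle {x | 1 < SS n (hs g t m c w) x} := by
          rw [← Finset.mul_sum, ← mul_assoc]; norm_num
      _ ≤ ∑ w, (b w + 1) := Finset.sum_le_sum fun w _ => hAw w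
      _ = ∑ w, b w + 2 ^ m := by
          rw [Finset.sum_add_distrib, Finset.sum_const, Finset.card_univ, Fintype.card_fun,
            Fintype.card_bool, Fintype.card_fin, nsmul_eq_mul, mul_one]; norm_num
      _ ≤ _ := add_le_add hsum le_rfl
  have h8 : (2:ℝ≥0∞) ^ m * 1 ≤ 2 ^ m * (m * A0) := by
    rw [mul_one]; exact (ENNReal.add_le_add_iff_right (by finiteness)).1 h7
  have h9 : 1 ≤ m * A0 := (ENNReal.mul_le_mul_iff_right (by positivity) (by finiteness)).1 h8
  calc haarAddCircle F = haarAddCircle F * 1 := (mul_one _).symm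
    _ ≤ haarAddCircle F * (m * A0) := mul_le_mul_right h9 _
    _ = (m * haarAddCircle F) * A0 := by ring
    _ ≤ 2 * A0 := mul_le_mul_left hm _

end stein

section sums

variable {T : ℝ} [hT : Fact (0 < T)] {E : Type*} [NormedAddCommGroup E] [NormedSpace ℂ E]

/-- the sum of the Fourier series over the frequencies `M ≤ k ≤ N` -/
noncomputable def PS (M N : ℤ) (f : AddCircle T → E) (x : AddCircle T) : E :=
  ∑ k ∈ Finset.Icc M N, fourier k x • fourierCoeff f k

/-- the distributional inequality -/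
def MaxC (C : ℝ) (T : ℝ) [Fact (0 < T)] (E : Type*) [NormedAddCommGroup E] [NormedSpace ℂ E] :
    Prop :=
  ∀ f : AddCircle T → E, Integrable f haarAddCircle → ∀ lam : ℝ, 0 < lam →
    haarAddCircle {x | ∃ M N : ℤ, lam < ‖PS M N f x‖} ≤ ENNReal.ofReal C * mP haarAddCircle f lam

omit hT in
theorem norm_fourier (k : ℤ) (x : AddCircle T) : ‖(fourier k x : ℂ)‖ = 1 := by
  rw [fourier_apply, Circle.norm_coe]

theorem PS_cont (M N : ℤ) (f : AddCircle T → E) : Continuous (PS M N f) := by
  unfold PS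
  exact continuous_finsetSum _ fun k _ => (fourier k).continuous.smul continuous_const

theorem PS_set_meas (f : AddCircle T → E) (lam : ℝ) :
    MeasurableSet {x | ∃ M N : ℤ, lam < ‖PS M N f x‖} := by
  refine IsOpen.measurableSet ?_
  simp only [ofPred_exists]
  exact isOpen_iUnion fun M => isOpen_iUnion fun N =>
    isOpen_lt continuous_const (PS_cont M N f).norm

theorem PS_congr (M N : ℤ) {f g : AddCircle T → E} (h : f =ᵐ[haarAddCircle] g) :
    PS M N f = PS M N g := by
  unfold PS; rw [fourierCoeff_congr_ae h]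

theorem PS_add (M N : ℤ) {f g : AddCircle T → E} (hf : Integrable f haarAddCircle)
    (hg : Integrable g haarAddCircle) (x : AddCircle T) :
    PS M N (f + g) x = PS M N f x + PS M N g x := by
  unfold PS
  rw [← Finset.sum_add_distrib, fourierCoeff.add hf hg]
  refine Finset.sum_congr rfl fun k _ => ?_
  rw [Pi.add_apply, smul_add]

theorem PS_eq_S (N : ℕ) (f : AddCircle T → ℂ) (x : AddCircle T) :
    PS (-(N : ℤ)) N f x = S N f x := by
  unfold PS S
  exact Finset.sum_congr rfl fun k _ => by rw [smul_eq_mul, mul_comm]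

theorem PS_split {a b c : ℤ} (h1 : a ≤ b + 1) (h2 : b ≤ c) (f : AddCircle T → E)
    (x : AddCircle T) : PS a c f x = PS a b f x + PS (b + 1) c f x := by
  unfold PS
  rw [← Finset.sum_union]
  · congr 1
    ext k; simp only [Finset.mem_Icc, Finset.mem_union]; omega
  · rw [Finset.disjoint_left]
    intro k hk hk'
    rw [Finset.mem_Icc] at hk hk'; omega

theorem coeff_mod (L k : ℤ) (f : AddCircle T → E) :
    fourierCoeff (fun y => fourier L y • f y) k = fourierCoeff f (k - L) := by
  unfold fourierCoeff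
  refine integral_congr_ae (Eventually.of_forall fun y => ?_)
  simp only []
  rw [smul_smul, ← fourier_add]
  congr 3; ring

theorem PS_mod (L M N : ℤ) (f : AddCircle T → E) (x : AddCircle T) :
    PS M N (fun y => fourier L y • f y) x = fourier L x • PS (M - L) (N - L) f x := by
  unfold PS
  rw [Finset.smul_sum]
  refine Finset.sum_nbij' (fun k => k - L) (fun j => j + L) ?_ ?_ ?_ ?_ ?_
  · intro k hk; simp only [Finset.mem_Icc] at hk ⊢; omega
  · intro k hk; simp only [Finset.mem_Icc] at hk ⊢; omega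
  · intro k _; simp
  · intro k _; simp
  · intro k _
    rw [coeff_mod, smul_smul, ← fourier_add]
    congr 3; ring

/-- Riemann-Lebesgue -/
theorem rl (f : AddCircle T → E) {ε : ℝ} (hε : 0 < ε) :
    ∃ K : ℕ, ∀ j : ℤ, (K : ℤ) ≤ |j| → ‖fourierCoeff f j‖ ≤ ε := by
  have hT0 := hT.out
  set F : ℝ → E := (Ioc (0:ℝ) (0 + T)).indicator fun v => f v with hF
  have h1 := Real.tendsto_integral_exp_smul_cocompact F
  rw [← Metric.cobounded_eq_cocompact] at h1
  have h2 := (Metric.tendsto_nhds.1 h1) (T * ε) (by positivity)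
  obtain ⟨r, -, hr⟩ := Filter.hasBasis_cobounded_norm.eventually_iff.1 h2
  refine ⟨⌈r * T⌉₊, fun j hj => ?_⟩
  have h3 : r ≤ ‖(j : ℝ) / T‖ := by
    rw [Real.norm_eq_abs, abs_div, abs_of_pos hT0, le_div_iff₀ hT0]
    have h4 : ((⌈r * T⌉₊ : ℤ) : ℝ) ≤ ((|j| : ℤ) : ℝ) := by exact_mod_cast hj
    rw [Int.cast_abs] at h4
    exact (Nat.le_ceil _).trans (by exact_mod_cast h4)
  have h5 := hr h3
  rw [dist_zero_right] at h5
  have h6 : ∫ x in (0:ℝ)..0 + T, @fourier T (-j) x • f x =
      ∫ v : ℝ, Real.fourierChar (-(v * (j / T))) • F v := by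
    rw [intervalIntegral.integral_of_le (by linarith), ← integral_indicator measurableSet_Ioc]
    refine integral_congr_ae (Eventually.of_forall fun v => ?_)
    by_cases hv : v ∈ Ioc (0:ℝ) (0 + T)
    · simp only [hF, indicator_of_mem hv]
      rw [Circle.smul_def, Real.fourierChar_apply, fourier_coe_apply]
      congr 2
      push_cast; ring
    · simp only [hF, indicator_of_notMem hv, smul_zero]
  rw [fourierCoeff_eq_intervalIntegral f j 0, h6, norm_smul, Real.norm_of_nonneg (by positivity),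
    one_div, inv_mul_le_iff₀ hT0]
  exact h5.le

theorem PS_small (f : AddCircle T → E) {M N : ℤ} {ε : ℝ}
    (h : ∀ k ∈ Finset.Icc M N, ‖fourierCoeff f k‖ ≤ ε) (x : AddCircle T) :
    ‖PS M N f x‖ ≤ (Finset.Icc M N).card * ε := by
  unfold PS
  refine (norm_sum_le _ _).trans ((Finset.sum_le_card_nsmul _ _ ε fun k hk => ?_).trans ?_)
  · rw [norm_smul, norm_fourier, one_mul]; exact h k hk
  · rw [nsmul_eq_mul]

/-- symmetric sums -/
theorem symm_bound (hA : PAw T) : ∃ C : ℝ, 0 < C ∧ ∀ f : AddCircle T → ℂ,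
    AEStronglyMeasurable f haarAddCircle → ∀ lam : ℝ, 0 < lam →
      haarAddCircle {x | ∃ N : ℕ, lam < ‖PS (-(N : ℤ)) N f x‖} ≤
        ENNReal.ofReal C * mP haarAddCircle f lam := by
  obtain ⟨C, hC, hw⟩ := weak_n (PAm_of_PAw hA)
  set K : ℝ := max 1 (8 * C) with hK
  have hK1 : 1 ≤ K := le_max_left _ _
  have hK0 : 0 < K := by linarith
  refine ⟨2 * K ^ 2, by positivity, fun f hm lam hlam => ?_⟩
  obtain ⟨f', mf', hff⟩ : ∃ g : AddCircle T → ℂ, Measurable g ∧ f =ᵐ[haarAddCircle] g :=
    ⟨hm.aemeasurable.mk f, hm.aemeasurable.measurable_mk, hm.aemeasurable.ae_eq_mk⟩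
  set g : AddCircle T → ℂ := fun x => ((K / lam : ℝ) : ℂ) * f' x with hg
  have mg : Measurable g := measurable_const.mul mf'
  have hset : {x | ∃ N : ℕ, lam < ‖PS (-(N : ℤ)) N f x‖} ⊆
      ⋃ n : ℕ, {x | ENNReal.ofReal (8 * C) < SS n g x} := by
    rintro x ⟨N, hN⟩
    refine mem_iUnion.2 ⟨N, ?_⟩
    refine lt_of_lt_of_le ?_ (le_iSup (fun M : Fin (N + 1) => ‖S M g x‖ₑ) ⟨N, Nat.lt_succ_self N⟩)
    show ENNReal.ofReal (8 * C) < ‖S N g x‖ₑ
    rw [← ofReal_norm]
    refine (ENNReal.ofReal_lt_ofReal_iff_of_nonneg (by positivity)).2 ?_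
    rw [PS_eq_S, S_congr N hff] at hN
    rw [hg, S_mul, norm_mul, Complex.norm_real, Real.norm_of_nonneg (by positivity)]
    calc 8 * C ≤ K := le_max_right _ _
      _ = K / lam * lam := by field_simp
      _ < _ := mul_lt_mul_of_pos_left hN (by positivity)
  refine (measure_mono hset).trans ?_
  have hmono : Monotone fun n : ℕ => {x | ENNReal.ofReal (8 * C) < SS n g x} := by
    intro m n hmn x hx
    refine lt_of_lt_of_le (show ENNReal.ofReal (8 * C) < SS m g x from hx) ?_
    exact iSup_le fun N => le_iSup (fun N : Fin (n + 1) => ‖S N g x‖ₑ) ⟨N, by omega⟩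
  rw [hmono.measure_iUnion]
  refine iSup_le fun n => (stein hC hw mg n).trans ?_
  have h1 : ∫⁻ x, ENNReal.ofReal (Ph ‖g x‖) ∂haarAddCircle = mP haarAddCircle f (lam / K) := by
    refine lintegral_congr_ae ?_
    filter_upwards [hff] with x hx
    rw [hx, hg]
    simp only []
    rw [norm_mul, Complex.norm_real, Real.norm_of_nonneg (by positivity)]
    congr 2; field_simp
  rw [h1, ENNReal.ofReal_mul (by norm_num), mul_assoc, ENNReal.ofReal_ofNat]
  exact mul_le_mul_right (mP_scale _ f hlam hK1) _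

/-- all frequency intervals -/
theorem maxC_scalar (hA : PAw T) : ∃ C : ℝ, 0 < C ∧ MaxC C T ℂ := by
  obtain ⟨C, hC, h⟩ := symm_bound hA
  refine ⟨C * 2 ^ 2, by positivity, fun f hf lam hlam => ?_⟩
  refine meas_liminf _ (B := fun L : ℕ => {x | ∃ N : ℕ,
    lam / 2 < ‖PS (-(N : ℤ)) N (fun y => fourier (L : ℤ) y • f y) x‖}) ?_ fun L => ?_
  · rintro x ⟨M, N, hx⟩
    rcases lt_or_ge N M with hMN | hMN
    · exfalso
      unfold PS at hx
      rw [Finset.Icc_eq_empty (not_le.2 hMN), Finset.sum_empty, norm_zero] at hx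
      linarith
    set c : ℝ := ((N + 1 - M).toNat : ℝ) with hc
    have hc0 : 0 ≤ c := Nat.cast_nonneg _
    set ε : ℝ := (‖PS M N f x‖ - lam) / (c + 1) with hε
    have hε0 : 0 < ε := div_pos (by linarith) (by linarith)
    obtain ⟨K, hK⟩ := rl f hε0
    filter_upwards [eventually_ge_atTop (K + M.natAbs + N.natAbs + 1)] with L hL
    obtain ⟨n1, hn1⟩ : ∃ n1 : ℕ, (n1 : ℤ) = L + N := ⟨(L + N).toNat, by omega⟩
    obtain ⟨n2, hn2⟩ : ∃ n2 : ℕ, (n2 : ℤ) = L + M - 1 := ⟨(L + M - 1).toNat, by omega⟩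
    by_contra hcon
    simp only [not_exists, not_lt] at hcon
    have h1 := hcon n1
    have h2 := hcon n2
    rw [PS_mod, norm_smul, norm_fourier, one_mul] at h1 h2
    have e1 : -(n1 : ℤ) - L = -2 * L - N := by omega
    have e2 : (n1 : ℤ) - L = N := by omega
    have e3 : -(n2 : ℤ) - L = (-2 * L - M) + 1 := by omega
    have e4 : (n2 : ℤ) - L = M - 1 := by omega
    rw [e1, e2] at h1
    rw [e3, e4] at h2
    have h3 : PS (-2 * L - N) N f x = PS (-2 * L - N) (-2 * L - M) f x +
        (PS (-2 * L - M + 1) (M - 1) f x + PS M N f x) := by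
      rw [PS_split (b := -2 * L - M) (by omega) (by omega),
        PS_split (a := -2 * L - M + 1) (b := M - 1) (by omega) (by omega), sub_add_cancel]
    have h4 : ‖PS (-2 * L - N) (-2 * L - M) f x‖ ≤ c * ε := by
      refine (PS_small f (fun k hk => hK k ?_) x).trans (le_of_eq ?_)
      · rw [Finset.mem_Icc] at hk
        rw [abs_of_nonpos (by omega)]; omega
      · rw [Int.card_Icc, hc]
        congr 3; ring
    have h5 : PS M N f x = PS (-2 * L - N) N f x - PS (-2 * L - N) (-2 * L - M) f x -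
        PS (-2 * L - M + 1) (M - 1) f x := by rw [h3]; abel
    have h6 : ‖PS M N f x‖ ≤ lam / 2 + c * ε + lam / 2 := by
      rw [h5]
      exact (norm_sub_le _ _).trans (add_le_add ((norm_sub_le _ _).trans (add_le_add h1 h4)) h2)
    have h7 : (c + 1) * ε = ‖PS M N f x‖ - lam := by rw [hε]; field_simp
    nlinarith
  · refine (h _ (hf.fourier_smul L).1 (lam / 2) (by positivity)).trans ?_
    have h1 : mP haarAddCircle (fun y => fourier (L : ℤ) y • f y) (lam / 2) =
        mP haarAddCircle f (lam / 2) := by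
      unfold mP
      simp_rw [norm_smul, norm_fourier, one_mul]
    rw [h1, ENNReal.ofReal_mul hC.le, mul_assoc]
    exact mul_le_mul_right (mP_scale _ f hlam one_le_two) _

/-- all periods -/
theorem maxC_period {C : ℝ} [Fact (0 < (1:ℝ))] (h : MaxC C 1 E) : MaxC C T E := by
  intro f hf lam hlam
  have hT0 := hT.out
  set φ : AddCircle (1:ℝ) ≃ₜ AddCircle T := homeomorphAddCircle 1 T one_ne_zero hT0.ne' with hφ
  have mp : MeasurePreserving φ haarAddCircle haarAddCircle :=
    AddMonoidHom.measurePreserving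
      (f := (equivAddCircle 1 T one_ne_zero hT0.ne').toAddMonoidHom) φ.continuous φ.surjective
      (by simp)
  have hfo : ∀ (k : ℤ) (x : AddCircle (1:ℝ)), (fourier k (φ x) : ℂ) = fourier k x := by
    intro k x
    induction x using QuotientAddGroup.induction_on with
    | H z =>
      rw [hφ, homeomorphAddCircle_apply_mk, fourier_coe_apply, fourier_coe_apply]
      congr 1
      have : (T : ℂ) ≠ 0 := by exact_mod_cast hT0.ne'
      push_cast; field_simp
  have hco : ∀ k, fourierCoeff (f ∘ φ) k = fourierCoeff f k := by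
    intro k
    unfold fourierCoeff
    rw [← mp.integral_comp φ.measurableEmbedding]
    simp_rw [hfo]; rfl
  have hPS : ∀ M N x, PS M N (f ∘ φ) x = PS M N f (φ x) := by
    intro M N x
    unfold PS
    simp_rw [hco, hfo]
  have h1 := h (f ∘ φ) (mp.integrable_comp_of_integrable hf) lam hlam
  simp_rw [hPS] at h1
  rw [← mp.measure_preimage (PS_set_meas f lam).nullMeasurableSet]
  refine le_trans h1 (le_of_eq ?_)
  congr 1
  unfold mP
  exact mp.lintegral_comp_emb φ.measurableEmbedding fun x => ENNReal.ofReal (Ph (‖f x‖ / lam))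

theorem PS_clm [CompleteSpace E] {F : Type*} [NormedAddCommGroup F] [NormedSpace ℂ F]
    [CompleteSpace F] (L : E →L[ℂ] F) {f : AddCircle T → E} (hf : Integrable f haarAddCircle)
    (M N : ℤ) (x : AddCircle T) : PS M N (fun y => L (f y)) x = L (PS M N f x) := by
  unfold PS
  rw [map_sum]
  refine Finset.sum_congr rfl fun k _ => ?_
  rw [map_smul]
  congr 1
  unfold fourierCoeff
  rw [← L.integral_comp_comm (hf.fourier_smul _)]
  simp_rw [map_smul]

end sums

/-- values in a Hilbert space -/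
theorem maxC_hilbert {T : ℝ} [hT : Fact (0 < T)] {C : ℝ} (hC : 0 ≤ C) (h : MaxC C T ℂ)
    (E : Type*) [NormedAddCommGroup E] [InnerProductSpace ℂ E] [CompleteSpace E] :
    MaxC (20 / 3 * (C * 2 ^ 2)) T E := by
  intro f hf lam hlam
  refine meas_liminf _ (B := fun n : ℕ => {x | ∃ M N : ℤ, -(n : ℤ) ≤ M ∧ N ≤ n ∧
    lam < ‖PS M N f x‖}) ?_ fun n => ?_
  · rintro x ⟨M, N, hx⟩
    filter_upwards [eventually_ge_atTop (M.natAbs + N.natAbs)] with n hn
    exact ⟨M, N, by omega, by omega, hx⟩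
  set V : Submodule ℂ E := Submodule.span ℂ (fourierCoeff f '' Icc (-(n : ℤ)) n) with hV
  have : FiniteDimensional ℂ V := FiniteDimensional.span_of_finite ℂ ((finite_Icc _ _).image _)
  set m := Module.finrank ℂ V with hm
  set b : OrthonormalBasis (Fin m) ℂ V := stdOrthonormalBasis ℂ V with hb
  have hv : Orthonormal ℂ fun i => (b i : E) := b.orthonormal.comp_linearIsometry V.subtypeₗᵢ
  set L : (Fin m → Bool) → E →L[ℂ] ℂ := fun w => ∑ i, sgn (w i) • innerSL ℂ (b i : E) with hL
  have hLa : ∀ w z, L w z = ∑ i, sgn (w i) * inner ℂ (b i : E) z := by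
    intro w z
    simp [hL]
  have iG : ∀ w, Integrable (fun y => L w (f y)) haarAddCircle := fun w => (L w).integrable_comp hf
  set A : (Fin m → Bool) → Set (AddCircle T) := fun w =>
    {x | ∃ M N : ℤ, lam / 2 < ‖PS M N (fun y => L w (f y)) x‖} with hA
  have mA : ∀ w, MeasurableSet (A w) := fun w => PS_set_meas _ _
  have hsub : {x | ∃ M N : ℤ, -(n : ℤ) ≤ M ∧ N ≤ n ∧ lam < ‖PS M N f x‖} ⊆
      {x | ENNReal.ofReal (2 ^ m * (3 / 20)) ≤ ∑ w, (A w).indicator (1 : AddCircle T → ℝ≥0∞) x} := by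
    rintro x ⟨M, N, hM, hN, hx⟩
    have hz : PS M N f x ∈ V := by
      refine V.sum_mem fun k hk => V.smul_mem _ (Submodule.subset_span ⟨k, ?_, rfl⟩)
      rw [Finset.mem_Icc] at hk
      exact ⟨by omega, by omega⟩
    have h1 : ∑ i, ‖inner ℂ (b i : E) (PS M N f x)‖ ^ 2 = ‖PS M N f x‖ ^ 2 :=
      b.sum_sq_norm_inner_right ⟨PS M N f x, hz⟩
    have h2 := paley (fun i => inner ℂ (b i : E) (PS M N f x)) (lam := lam)
      (by rw [h1]; exact pow_lt_pow_left₀ hx hlam.le two_ne_zero)
    refine (ENNReal.ofReal_le_ofReal h2).trans ?_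
    rw [ENNReal.ofReal_sum_of_nonneg fun w _ => by split_ifs <;> norm_num]
    refine Finset.sum_le_sum fun w _ => ?_
    split_ifs with hw
    · have : x ∈ A w := ⟨M, N, by rw [PS_clm _ hf, hLa]; exact hw⟩
      rw [indicator_of_mem this]; simp
    · simp
  have mI : Measurable fun x => ∑ w, (A w).indicator (1 : AddCircle T → ℝ≥0∞) x :=
    Finset.measurable_sum _ fun w _ => measurable_one.indicator (mA w)
  have h3 := mul_meas_ge_le_lintegral₀ (μ := haarAddCircle) mI.aemeasurable
    (ENNReal.ofReal (2 ^ m * (3 / 20)))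
  rw [lintegral_finsetSum _ fun w _ => measurable_one.indicator (mA w)] at h3
  simp_rw [lintegral_indicator_one (mA _)] at h3
  have h4 : ∑ w, mP haarAddCircle (fun y => L w (f y)) (lam / 2) ≤
      ENNReal.ofReal (2 ^ m) * mP haarAddCircle f (lam / 2) := by
    have am : ∀ w, AEMeasurable (fun y => ENNReal.ofReal (Ph (‖L w (f y)‖ / (lam / 2))))
        haarAddCircle := fun w =>
      (Ph_meas.comp_aemeasurable ((iG w).1.norm.aemeasurable.div_const _)).ennreal_ofReal
    unfold mP
    rw [← lintegral_finsetSum' _ fun w _ => am w,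
      ← lintegral_const_mul' _ _ ENNReal.ofReal_ne_top]
    refine lintegral_mono fun y => ?_
    have l0 : 0 < lam / 2 := by positivity
    set z : E := ((1 / (lam / 2) : ℝ) : ℂ) • f y with hz
    have n1 : ‖z‖ = ‖f y‖ / (lam / 2) := by
      rw [hz, norm_smul, Complex.norm_real, Real.norm_of_nonneg (by positivity)]; ring
    have n2 : ∀ w, ‖L w (f y)‖ / (lam / 2) = ‖∑ i, sgn (w i) * inner ℂ (b i : E) z‖ := by
      intro w
      rw [← hLa, hz, map_smul, norm_smul, Complex.norm_real, Real.norm_of_nonneg (by positivity)]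
      ring
    rw [← ENNReal.ofReal_sum_of_nonneg fun w _ => Ph_nonneg (by positivity),
      ← ENNReal.ofReal_mul (by positivity)]
    refine ENNReal.ofReal_le_ofReal ?_
    simp_rw [n2]
    refine (jensen _).trans (mul_le_mul_of_nonneg_left ?_ (by positivity))
    refine Ph_mono (Real.sqrt_nonneg _) ?_
    rw [← n1]
    exact Real.sqrt_le_iff.2 ⟨norm_nonneg _, hv.sum_inner_products_le z⟩
  have h5 : ENNReal.ofReal (2 ^ m * (3 / 20)) *
      haarAddCircle {x | ∃ M N : ℤ, -(n : ℤ) ≤ M ∧ N ≤ n ∧ lam < ‖PS M N f x‖} ≤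
      ENNReal.ofReal (2 ^ m * (3 / 20)) *
        (ENNReal.ofReal (20 / 3 * (C * 2 ^ 2)) * mP haarAddCircle f lam) := by
    calc _ ≤ ∑ w, haarAddCircle (A w) := (mul_le_mul_right (measure_mono hsub) _).trans h3
      _ ≤ ∑ w, ENNReal.ofReal C * mP haarAddCircle (fun y => L w (f y)) (lam / 2) :=
          Finset.sum_le_sum fun w _ => h _ (iG w) _ (by positivity)
      _ ≤ ENNReal.ofReal C * (ENNReal.ofReal (2 ^ m) *
            (ENNReal.ofReal (2 ^ 2) * mP haarAddCircle f lam)) := by
          rw [← Finset.mul_sum]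
          exact mul_le_mul_right (h4.trans
            (mul_le_mul_right (mP_scale _ f hlam one_le_two) _)) _
      _ = _ := by
          simp only [← mul_assoc]
          rw [← ENNReal.ofReal_mul hC, ← ENNReal.ofReal_mul (by positivity),
            ← ENNReal.ofReal_mul (by positivity)]
          congr 2; ring
  refine (ENNReal.mul_le_mul_iff_right ?_ ENNReal.ofReal_ne_top).1 h5
  rw [Ne, ENNReal.ofReal_eq_zero, not_le]; positivity

/-- one constant for all periods and all Hilbert spaces -/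
theorem maxC_all (hA : ∀ (T : ℝ) [Fact (0 < T)], PAw T) : ∃ C : ℝ, 1 ≤ C ∧
    ∀ (E : Type) [NormedAddCommGroup E] [InnerProductSpace ℂ E] [CompleteSpace E]
      (T : ℝ) [Fact (0 < T)], MaxC C T E := by
  have : Fact (0 < (1:ℝ)) := ⟨one_pos⟩
  obtain ⟨C, hC, h⟩ := maxC_scalar (hA 1)
  refine ⟨max 1 (20 / 3 * (C * 2 ^ 2)), le_max_left _ _, fun E _ _ _ T _ f hf lam hlam => ?_⟩
  refine (maxC_period (maxC_hilbert hC.le h E) f hf lam hlam).trans ?_
  exact mul_le_mul_left (ENNReal.ofReal_le_ofReal (le_max_right _ _)) _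

end Vale.Agent.N091
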