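import Vale.Agent.P091.H253.Weak

/-!
# P091, second hand-in: the function `t log (1 + t)` and random signs
-/

open MeasureTheory AddCircle Set Filter Topology
open scoped ENNReal NNReal

namespace Vale.Agent.N091

open Vale.Agent.P091.H253

/-- `t log (1 + t)` -/
noncomputable def Ph (t : ℝ) : ℝ := t * Real.log (1 + t)

theorem Ph_nonneg {t : ℝ} (ht : 0 ≤ t) : 0 ≤ Ph t :=
  mul_nonneg ht (Real.log_nonneg (by linarith))

theorem Ph_mono {s t : ℝ} (hs : 0 ≤ s) (h : s ≤ t) : Ph s ≤ Ph t := by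
  unfold Ph
  exact mul_le_mul h (Real.log_le_log (by linarith) (by linarith))
    (Real.log_nonneg (by linarith)) (hs.trans h)

theorem Ph_zero : Ph 0 = 0 := by simp [Ph]

theorem Ph_meas : Measurable Ph := measurable_id.mul (measurable_const.add measurable_id).log

theorem log_bern {t K : ℝ} (ht : 0 ≤ t) (hK : 1 ≤ K) :
    Real.log (1 + K * t) ≤ K * Real.log (1 + t) := by
  have h1 : 1 + K * t ≤ (1 + t) ^ K := one_add_mul_self_le_rpow_one_add (by linarith) hK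
  have h2 : 0 < 1 + K * t := by positivity
  calc Real.log (1 + K * t) ≤ Real.log ((1 + t) ^ K) := Real.log_le_log h2 h1
    _ = K * Real.log (1 + t) := Real.log_rpow (by linarith) K

theorem Ph_mul {t K : ℝ} (ht : 0 ≤ t) (hK : 1 ≤ K) : Ph (K * t) ≤ K ^ 2 * Ph t := by
  unfold Ph
  have h1 := log_bern ht hK
  have h2 : 0 ≤ K * t := by positivity
  calc K * t * Real.log (1 + K * t) ≤ K * t * (K * Real.log (1 + t)) :=
        mul_le_mul_of_nonneg_left h1 h2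
    _ = _ := by ring

theorem Ph_le_sq {t : ℝ} (ht : 0 ≤ t) : Ph t ≤ t ^ 2 := by
  unfold Ph
  have h1 : Real.log (1 + t) ≤ t := by
    have := Real.log_le_sub_one_of_pos (show 0 < 1 + t by linarith); linarith
  nlinarith

theorem ph_le {t : ℝ} (ht : 0 ≤ t) : ph t ≤ Ph t + 1 := by
  unfold ph Ph
  have h0 : 0 < 1 + t := by linarith
  have h1 : Real.log ((2 + t) / (1 + t)) ≤ (2 + t) / (1 + t) - 1 :=
    Real.log_le_sub_one_of_pos (by positivity)
  rw [Real.log_div (by linarith) h0.ne'] at h1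
  have h2 : (2 + t) / (1 + t) - 1 = 1 / (1 + t) := by field_simp; ring
  rw [h2] at h1
  have h3 : t * (1 / (1 + t)) ≤ 1 := by
    rw [mul_one_div, div_le_one h0]; linarith
  nlinarith [mul_le_mul_of_nonneg_left h1 ht]

theorem Ph_le_ph {t : ℝ} (ht : 0 ≤ t) : Ph t ≤ ph t := by
  unfold ph Ph
  exact mul_le_mul_of_nonneg_left (Real.log_le_log (by linarith) (by linarith)) ht

theorem ph_div {t a : ℝ} (ht : 0 ≤ t) (ha : 1 ≤ a) : ph (t / a) ≤ ph t / a := by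
  unfold ph
  have h0 : 0 < a := by linarith
  have h1 : t / a ≤ t := div_le_self ht ha
  have h2 : 0 ≤ t / a := by positivity
  calc t / a * Real.log (2 + t / a) ≤ t / a * Real.log (2 + t) :=
        mul_le_mul_of_nonneg_left (Real.log_le_log (by linarith) (by linarith)) h2
    _ = _ := by ring

/-- tangent line inequality for `u ↦ Ph (√u)` -/
theorem Ph_tangent {r s : ℝ} (hr : 0 < r) (hs : 0 ≤ s) :
    Ph s ≤ Ph r + (Real.log (1 + r) + r / (1 + r)) / (2 * r) * (s ^ 2 - r ^ 2) := by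
  unfold Ph
  have h1r : 0 < 1 + r := by linarith
  have h1s : 0 < 1 + s := by linarith
  set L := Real.log (1 + r) with hL
  have h1 : Real.log ((1 + s) / (1 + r)) ≤ (1 + s) / (1 + r) - 1 :=
    Real.log_le_sub_one_of_pos (by positivity)
  rw [Real.log_div h1s.ne' h1r.ne'] at h1
  have h2 : (1 + s) / (1 + r) - 1 = (s - r) / (1 + r) := by field_simp; ring
  rw [h2] at h1
  have h3 : 1 - (1 + r)⁻¹ ≤ L := Real.one_sub_inv_le_log_of_pos h1r
  have h4 : 1 - (1 + r)⁻¹ = r / (1 + r) := by field_simp; ring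
  rw [h4] at h3
  have h5 : s * Real.log (1 + s) ≤ s * (L + (s - r) / (1 + r)) :=
    mul_le_mul_of_nonneg_left (by linarith) hs
  have h6 : r * L + (L + r / (1 + r)) / (2 * r) * (s ^ 2 - r ^ 2) - s * (L + (s - r) / (1 + r)) =
      (s - r) ^ 2 / (2 * r) * (L - r / (1 + r)) := by field_simp; ring
  have h7 : 0 ≤ (s - r) ^ 2 / (2 * r) * (L - r / (1 + r)) :=
    mul_nonneg (by positivity) (by linarith)
  linarith

theorem Ph_sub {ι : Type*} (A : Finset ι) (u : ι → ℝ) (hu : ∀ i ∈ A, 0 ≤ u i) :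
    Ph (Real.sqrt (∑ i ∈ A, u i ^ 2)) ≤ ∑ i ∈ A, Ph (u i) := by
  set r := Real.sqrt (∑ i ∈ A, u i ^ 2) with hr
  have h0 : 0 ≤ ∑ i ∈ A, u i ^ 2 := Finset.sum_nonneg fun i _ => sq_nonneg _
  have hr2 : r ^ 2 = ∑ i ∈ A, u i ^ 2 := Real.sq_sqrt h0
  have hr0 : 0 ≤ r := Real.sqrt_nonneg _
  rcases hr0.eq_or_lt with h | h
  · rw [← h, Ph_zero]; exact Finset.sum_nonneg fun i hi => Ph_nonneg (hu i hi)
  have h1 : Ph r = ∑ i ∈ A, u i ^ 2 * (Real.log (1 + r) / r) := by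
    rw [← Finset.sum_mul, ← hr2]; unfold Ph; field_simp
  rw [h1]
  refine Finset.sum_le_sum fun i hi => ?_
  rcases (hu i hi).eq_or_lt with h2 | h2
  · rw [← h2, Ph_zero]; simp
  have h3 : u i ≤ r := by
    refine Real.le_sqrt_of_sq_le ?_
    exact Finset.single_le_sum (f := fun i => u i ^ 2) (fun i _ => sq_nonneg _) hi
  have h4 := log_bern h2.le (show 1 ≤ r / u i from (one_le_div h2).2 h3)
  rw [div_mul_cancel₀ _ h2.ne'] at h4
  unfold Ph
  calc u i ^ 2 * (Real.log (1 + r) / r) ≤ u i ^ 2 * ((r / u i * Real.log (1 + u i)) / r) := by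
        gcongr
    _ = u i * Real.log (1 + u i) := by field_simp

/-! ## signs -/

theorem sgn_not (b : Bool) : sgn (!b) = - sgn b := by
  cases b <;> simp [sgn]

theorem norm_sgn (b : Bool) : ‖sgn b‖ = 1 := by
  cases b <;> simp [sgn]

theorem sum_flip {m : ℕ} (a : Fin m) (F : (Fin m → Bool) → ℝ) :
    ∑ w, F w = ∑ w : Fin m → Bool, F (Function.update w a (!w a)) := by
  have hinv : Function.Involutive fun w : Fin m → Bool => Function.update w a (!w a) := by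
    intro w
    ext j
    by_cases hj : j = a
    · subst hj; simp
    · simp [Function.update_of_ne hj]
  exact (Equiv.sum_comp hinv.toPerm F).symm

theorem sum_step {m : ℕ} (z : Fin m → ℂ) (A : Finset (Fin m)) {a : Fin m} (ha : a ∉ A)
    (φ : ℂ → ℝ) :
    2 * ∑ w : Fin m → Bool, φ (∑ i ∈ insert a A, sgn (w i) * z i) =
      ∑ w : Fin m → Bool, (φ (∑ i ∈ A, sgn (w i) * z i + sgn (w a) * z a) +
        φ (∑ i ∈ A, sgn (w i) * z i - sgn (w a) * z a)) := by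
  rw [two_mul, Finset.sum_add_distrib]
  congr 1
  · refine Finset.sum_congr rfl fun w _ => ?_
    rw [Finset.sum_insert ha, add_comm]
  · rw [sum_flip a]
    refine Finset.sum_congr rfl fun w _ => ?_
    rw [Finset.sum_insert ha, Function.update_self, sgn_not]
    congr 1
    have : ∑ i ∈ A, sgn (Function.update w a (!w a) i) * z i = ∑ i ∈ A, sgn (w i) * z i := by
      refine Finset.sum_congr rfl fun i hi => ?_
      have hia : i ≠ a := by
        rintro rfl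
        exact ha hi
      rw [Function.update_of_ne hia]
    rw [this]; ring

theorem par2 (u v : ℂ) : ‖u + v‖ ^ 2 + ‖u - v‖ ^ 2 = 2 * (‖u‖ ^ 2 + ‖v‖ ^ 2) := by
  simp only [← Complex.normSq_eq_norm_sq, Complex.normSq_apply, Complex.add_re, Complex.add_im,
    Complex.sub_re, Complex.sub_im]
  ring

theorem par4 (u v : ℂ) : (‖u + v‖ ^ 2) ^ 2 + (‖u - v‖ ^ 2) ^ 2 ≤
    2 * ((‖u‖ ^ 2) ^ 2 + 6 * (‖u‖ ^ 2 * ‖v‖ ^ 2) + 3 * (‖v‖ ^ 2) ^ 2) := by
  simp only [← Complex.normSq_eq_norm_sq, Complex.normSq_apply, Complex.add_re, Complex.add_im,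
    Complex.sub_re, Complex.sub_im]
  nlinarith [sq_nonneg (u.re * v.im - u.im * v.re), sq_nonneg (v.re * v.re + v.im * v.im)]

theorem card_signs (m : ℕ) : ((Finset.univ : Finset (Fin m → Bool)).card : ℝ) = 2 ^ m := by
  rw [Finset.card_univ, Fintype.card_fun, Fintype.card_bool, Fintype.card_fin]; push_cast; rfl

theorem mom2 {m : ℕ} (z : Fin m → ℂ) (A : Finset (Fin m)) :
    ∑ w : Fin m → Bool, ‖∑ i ∈ A, sgn (w i) * z i‖ ^ 2 = 2 ^ m * ∑ i ∈ A, ‖z i‖ ^ 2 := by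
  induction A using Finset.induction_on with
  | empty => simp
  | insert a A ha ih =>
    have h1 := sum_step z A ha (fun u => ‖u‖ ^ 2)
    simp only [par2, norm_mul, norm_sgn, one_mul] at h1
    rw [← Finset.mul_sum, Finset.sum_add_distrib, ih, Finset.sum_const, nsmul_eq_mul,
      card_signs] at h1
    rw [Finset.sum_insert ha]
    linarith

theorem mom4 {m : ℕ} (z : Fin m → ℂ) (A : Finset (Fin m)) :
    ∑ w : Fin m → Bool, (‖∑ i ∈ A, sgn (w i) * z i‖ ^ 2) ^ 2 ≤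
      2 ^ m * (3 * (∑ i ∈ A, ‖z i‖ ^ 2) ^ 2) := by
  induction A using Finset.induction_on with
  | empty => simp
  | insert a A ha ih =>
    have h1 := sum_step z A ha (fun u => (‖u‖ ^ 2) ^ 2)
    have h2 : ∑ w : Fin m → Bool, ((‖∑ i ∈ A, sgn (w i) * z i + sgn (w a) * z a‖ ^ 2) ^ 2 +
        (‖∑ i ∈ A, sgn (w i) * z i - sgn (w a) * z a‖ ^ 2) ^ 2) ≤
        ∑ w : Fin m → Bool, 2 * ((‖∑ i ∈ A, sgn (w i) * z i‖ ^ 2) ^ 2 +
          6 * (‖∑ i ∈ A, sgn (w i) * z i‖ ^ 2 * ‖z a‖ ^ 2) + 3 * (‖z a‖ ^ 2) ^ 2) := by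
      refine Finset.sum_le_sum fun w _ => (par4 _ _).trans (le_of_eq ?_)
      rw [norm_mul, norm_sgn, one_mul]
    have h3 : ∑ w : Fin m → Bool, 2 * ((‖∑ i ∈ A, sgn (w i) * z i‖ ^ 2) ^ 2 +
          6 * (‖∑ i ∈ A, sgn (w i) * z i‖ ^ 2 * ‖z a‖ ^ 2) + 3 * (‖z a‖ ^ 2) ^ 2) =
        2 * (∑ w : Fin m → Bool, (‖∑ i ∈ A, sgn (w i) * z i‖ ^ 2) ^ 2 +
          6 * ((2 ^ m * ∑ i ∈ A, ‖z i‖ ^ 2) * ‖z a‖ ^ 2) + 2 ^ m * (3 * (‖z a‖ ^ 2) ^ 2)) := by
      rw [← Finset.mul_sum, Finset.sum_add_distrib, Finset.sum_add_distrib, ← Finset.mul_sum,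
        ← Finset.sum_mul, mom2, Finset.sum_const, nsmul_eq_mul, card_signs]
    rw [h3, ← h1] at h2
    have h4 : ∑ i ∈ insert a A, ‖z i‖ ^ 2 = ‖z a‖ ^ 2 + ∑ i ∈ A, ‖z i‖ ^ 2 :=
      Finset.sum_insert ha
    rw [h4]
    nlinarith

/-- Jensen for signed sums -/
theorem jensen {m : ℕ} (z : Fin m → ℂ) :
    ∑ w : Fin m → Bool, Ph ‖∑ i, sgn (w i) * z i‖ ≤ 2 ^ m * Ph (Real.sqrt (∑ i, ‖z i‖ ^ 2)) := by
  set r := Real.sqrt (∑ i, ‖z i‖ ^ 2) with hr
  have h0 : 0 ≤ ∑ i, ‖z i‖ ^ 2 := Finset.sum_nonneg fun i _ => sq_nonneg _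
  have hr2 : r ^ 2 = ∑ i, ‖z i‖ ^ 2 := Real.sq_sqrt h0
  have hr0 : 0 ≤ r := Real.sqrt_nonneg _
  have h2 := mom2 z Finset.univ
  rcases hr0.eq_or_lt with h | h
  · calc ∑ w : Fin m → Bool, Ph ‖∑ i, sgn (w i) * z i‖
        ≤ ∑ w : Fin m → Bool, ‖∑ i, sgn (w i) * z i‖ ^ 2 :=
          Finset.sum_le_sum fun w _ => Ph_le_sq (norm_nonneg _)
      _ = _ := by rw [h2, ← hr2, ← h, Ph_zero]; simp
  calc ∑ w : Fin m → Bool, Ph ‖∑ i, sgn (w i) * z i‖
      ≤ ∑ w : Fin m → Bool, (Ph r + (Real.log (1 + r) + r / (1 + r)) / (2 * r) *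
          (‖∑ i, sgn (w i) * z i‖ ^ 2 - r ^ 2)) :=
        Finset.sum_le_sum fun w _ => Ph_tangent h (norm_nonneg _)
    _ = _ := by
        rw [Finset.sum_add_distrib, ← Finset.mul_sum, Finset.sum_sub_distrib, h2, Finset.sum_const,
          Finset.sum_const, nsmul_eq_mul, nsmul_eq_mul, card_signs, hr2]
        ring

theorem jensen' {m : ℕ} (z : Fin m → ℂ) :
    ∑ w : Fin m → Bool, Ph ‖∑ i, sgn (w i) * z i‖ ≤ 2 ^ m * ∑ i, Ph ‖z i‖ :=
  (jensen z).trans (mul_le_mul_of_nonneg_left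
    (Ph_sub Finset.univ (fun i => ‖z i‖) fun _ _ => norm_nonneg _) (by positivity))

/-- Paley-Zygmund for signed sums -/
theorem paley {m : ℕ} (z : Fin m → ℂ) {lam : ℝ} (h : lam ^ 2 < ∑ i, ‖z i‖ ^ 2) :
    2 ^ m * (3 / 20 : ℝ) ≤
      ∑ w : Fin m → Bool, if lam / 2 < ‖∑ i, sgn (w i) * z i‖ then (1:ℝ) else 0 := by
  set s := ∑ i, ‖z i‖ ^ 2 with hs
  have hs0 : 0 < s := lt_of_le_of_lt (sq_nonneg _) h
  have h2 := mom2 z Finset.univ
  have h4 := mom4 z Finset.univ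
  rw [← hs] at h2 h4
  have pt : ∀ w : Fin m → Bool, ‖∑ i, sgn (w i) * z i‖ ^ 2 / s - 1 / 4 -
      (‖∑ i, sgn (w i) * z i‖ ^ 2) ^ 2 / (5 * s ^ 2) ≤
      if lam / 2 < ‖∑ i, sgn (w i) * z i‖ then (1:ℝ) else 0 := by
    intro w
    set Z := ‖∑ i, sgn (w i) * z i‖ with hZ
    have hZ0 : 0 ≤ Z := norm_nonneg _
    have e : (Z ^ 2) ^ 2 / (5 * s ^ 2) = (Z ^ 2 / s) ^ 2 / 5 := by field_simp
    rw [e]
    split_ifs with hw
    · nlinarith [sq_nonneg (Z ^ 2 / s - 5 / 2)]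
    · have h5 : Z ^ 2 ≤ (lam / 2) ^ 2 := pow_le_pow_left₀ hZ0 (not_lt.1 hw) 2
      have h6 : Z ^ 2 / s ≤ 1 / 4 := by
        rw [div_le_iff₀ hs0]; nlinarith
      nlinarith [sq_nonneg (Z ^ 2 / s)]
  refine le_trans ?_ (Finset.sum_le_sum fun w _ => pt w)
  rw [Finset.sum_sub_distrib, Finset.sum_sub_distrib, Finset.sum_const, ← Finset.sum_div,
    ← Finset.sum_div, h2, nsmul_eq_mul, card_signs]
  have h7 : (∑ w : Fin m → Bool, (‖∑ i, sgn (w i) * z i‖ ^ 2) ^ 2) / (5 * s ^ 2) ≤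
      2 ^ m * (3 / 5) := by
    rw [div_le_iff₀ (by positivity)]; nlinarith
  have h8 : 2 ^ m * s / s = 2 ^ m := by field_simp
  rw [h8]; linarith

end Vale.Agent.N091
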